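import Mathlib
import Crest.Agent.N207.NP.Sub
import Crest.Agent.N207.NP.St
import Crest.Agent.N207.AI.Evo
import Crest.Agent.N207.V.Basic
import Crest.Agent.N207.Rad.Loc
import Crest.Agent.N207.NP.Defs
import Crest.Agent.N207.Rad.Neck2
import Crest.Agent.N207.U.JG
import Crest.Agent.N207.T.Defs
import Crest.Agent.N207.AI.Par2

-- ▼ part N207/NP/Err
section

/-!
# Row 207, block P (helper85): the error function built from window integrals (real analysis)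
-/

set_option autoImplicit false
set_option linter.dupNamespace false
open Set MeasureTheory Filter Topology

noncomputable section

namespace Crest.Agent.N207.NP

theorem win_int {h : ℝ → ℝ} {a b w : ℝ} (hab : a ≤ b) (hw : 0 ≤ w)
    (hi : IntervalIntegrable h volume (a - w) b) (h0 : ∀ s ∈ Icc (a - w) b, 0 ≤ h s) :
    ContinuousOn (fun s => ∫ σ in (s - w)..s, h σ) (Icc a b) ∧
      ∫ s in a..b, ∫ σ in (s - w)..s, h σ ≤ w * ∫ σ in (a - w)..b, h σ := by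
  have hle : a - w ≤ b := by linarith
  set Φ : ℝ → ℝ := fun s => ∫ σ in (a - w)..s, h σ with hΦ
  have sub : ∀ s ∈ Icc (a - w) b, ∀ t ∈ Icc (a - w) b, IntervalIntegrable h volume s t :=
    fun s hs t ht => hi.mono_set (by rw [uIcc_of_le hle]; exact uIcc_subset_Icc hs ht)
  have l0 : a - w ∈ Icc (a - w) b := ⟨le_rfl, hle⟩
  have c : ContinuousOn Φ (Icc (a - w) b) := by
    have := intervalIntegral.continuousOn_primitive_interval' hi left_mem_uIcc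
    rwa [uIcc_of_le hle] at this
  have e : ∀ s ∈ Icc a b, ∫ σ in (s - w)..s, h σ = Φ s - Φ (s - w) := fun s hs =>
    (intervalIntegral.integral_interval_sub_left (sub _ l0 _ ⟨by linarith [hs.1], hs.2⟩)
      (sub _ l0 _ ⟨by linarith [hs.1], by linarith [hs.2]⟩)).symm
  have c1 : ContinuousOn Φ (Icc a b) := c.mono (Icc_subset_Icc_left (by linarith))
  have c2 : ContinuousOn (fun s => Φ (s - w)) (Icc a b) :=
    c.comp (by fun_prop) fun s hs => ⟨by linarith [hs.1], by linarith [hs.2]⟩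
  refine ⟨(c1.sub c2).congr e, ?_⟩
  have ii : ∀ s ∈ Icc (a - w) b, ∀ t ∈ Icc (a - w) b, IntervalIntegrable Φ volume s t :=
    fun s hs t ht => (c.mono (uIcc_subset_Icc hs ht)).intervalIntegrable
  have la : a ∈ Icc (a - w) b := ⟨by linarith, hab⟩
  have lb : b ∈ Icc (a - w) b := ⟨hle, le_rfl⟩
  have lw : b - w ∈ Icc (a - w) b := ⟨by linarith, by linarith⟩
  rw [intervalIntegral.integral_congr (g := fun s => Φ s - Φ (s - w))
      (fun s hs => e s (by rwa [uIcc_of_le hab] at hs)),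
    intervalIntegral.integral_sub (ii _ la _ lb) (c2.intervalIntegrable_of_Icc hab),
    intervalIntegral.integral_comp_sub_right Φ w]
  have a1 := intervalIntegral.integral_add_adjacent_intervals (ii _ l0 _ la) (ii _ la _ lb)
  have a2 := intervalIntegral.integral_add_adjacent_intervals (ii _ l0 _ lw) (ii _ lw _ lb)
  have a3 : 0 ≤ ∫ s in (a - w)..a, Φ s := intervalIntegral.integral_nonneg (by linarith)
    fun s hs => intervalIntegral.integral_nonneg hs.1 fun σ hσ =>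
      h0 σ ⟨hσ.1, hσ.2.trans (hs.2.trans hab)⟩
  have a4 : ∫ s in (b - w)..b, Φ s ≤ ∫ _ in (b - w)..b, Φ b :=
    intervalIntegral.integral_mono_on (by linarith) (ii _ lw _ lb) intervalIntegrable_const
      fun s hs => by
        have ls : s ∈ Icc (a - w) b := ⟨by linarith [hs.1], hs.2⟩
        have b1 := intervalIntegral.integral_add_adjacent_intervals (sub _ l0 _ ls) (sub _ ls _ lb)
        have b2 : 0 ≤ ∫ σ in s..b, h σ := intervalIntegral.integral_nonneg hs.2 fun σ hσ =>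
          h0 σ ⟨ls.1.trans hσ.1, hσ.2⟩
        simp only [hΦ]; linarith
  rw [intervalIntegral.integral_const, smul_eq_mul, sub_sub_cancel] at a4
  simp only [hΦ] at *
  linarith

theorem geo_le {q : ℝ} (h0 : 0 ≤ q) (h1 : q ≤ 7 / 8) (n : ℕ) : ∑ j ∈ Finset.range n, q ^ j ≤ 8 := by
  have h2 : q < 1 := by linarith
  refine ((summable_geometric_of_lt_one h0 h2).sum_le_tsum _ fun j _ => pow_nonneg h0 j).trans ?_
  rw [tsum_geometric_of_lt_one h0 h2, inv_le_comm₀ (by linarith) (by norm_num)]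
  linarith

/-- the error function -/
theorem err_fun {a b B μ C5 : ℝ} (J : ℕ) {h : ℕ → ℝ → ℝ} {w : ℕ → ℝ} (hab : a ≤ b) (hB : 0 < B)
    (hμ : 0 ≤ μ) (hC : 0 ≤ C5) (hw : ∀ j, 0 ≤ w j)
    (hi : ∀ j, IntervalIntegrable (h j) volume (a - w j) b)
    (h0 : ∀ j, ∀ s ∈ Icc (a - w j) b, 0 ≤ h j s) :
    ∃ e : ℝ → ℝ, ContinuousOn e (Icc a b) ∧
      (∀ s ∈ Icc a b, ∀ N, B * (1 + ∑ j ∈ Finset.range N, if j < J then
        μ + C5 * √((∫ σ in (s - w j)..s, h j σ) / (4 ^ j * B) ^ 3) else 0) ≤ e s) ∧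
      ∫ s in a..b, e s ^ 2 ≤ 2 * (B * (1 + J * μ)) ^ 2 * (b - a) +
        16 * C5 ^ 2 * ∑ j ∈ Finset.range J,
          (8 / 7) ^ j * B ^ 2 / (4 ^ j * B) ^ 3 * (w j * ∫ σ in (a - w j)..b, h j σ) := by
  set Hs : ℕ → ℝ → ℝ := fun j s => ∫ σ in (s - w j)..s, h j σ with hH
  have W := fun j => win_int hab (hw j) (hi j) (h0 j)
  set S : ℝ → ℝ := fun s => ∑ j ∈ Finset.range J, (8 / 7) ^ j * B ^ 2 / (4 ^ j * B) ^ 3 * Hs j s
    with hS
  have cS : ContinuousOn S (Icc a b) :=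
    continuousOn_finsetSum _ fun j _ => continuousOn_const.mul (W j).1
  have H0 : ∀ j, ∀ s ∈ Icc a b, 0 ≤ Hs j s := fun j s hs =>
    intervalIntegral.integral_nonneg (by linarith [hw j]) fun σ hσ =>
      h0 j σ ⟨by linarith [hσ.1, hs.1], hσ.2.trans hs.2⟩
  have S0 : ∀ s ∈ Icc a b, 0 ≤ S s := fun s hs =>
    Finset.sum_nonneg fun j _ => mul_nonneg (by positivity) (H0 j s hs)
  have ce : ContinuousOn (fun s => B * (1 + J * μ) + C5 * √(8 * S s)) (Icc a b) :=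
    continuousOn_const.add (continuousOn_const.mul (continuousOn_const.mul cS).sqrt)
  refine ⟨_, ce, fun s hs N => ?_, ?_⟩
  · have a1 : (∑ j ∈ Finset.range N, if j < J then μ + C5 * √(Hs j s / (4 ^ j * B) ^ 3) else 0) ≤
        ∑ j ∈ Finset.range J, (μ + C5 * √(Hs j s / (4 ^ j * B) ^ 3)) := by
      rw [← Finset.sum_filter]
      exact Finset.sum_le_sum_of_subset_of_nonneg
        (fun j hj => Finset.mem_range.2 (Finset.mem_filter.1 hj).2) fun j _ _ => by positivity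
    rw [Finset.sum_add_distrib, Finset.sum_const, Finset.card_range, nsmul_eq_mul,
      ← Finset.mul_sum] at a1
    have a2 : B * ∑ j ∈ Finset.range J, √(Hs j s / (4 ^ j * B) ^ 3) ≤ √(8 * S s) := by
      refine Real.le_sqrt_of_sq_le ?_
      rw [Finset.mul_sum]
      refine (Finset.sum_sq_le_sum_mul_sum_of_sq_eq_mul (Finset.range J) (f := fun j => (7 / 8) ^ j)
        (g := fun j => (8 / 7) ^ j * B ^ 2 / (4 ^ j * B) ^ 3 * Hs j s) (fun j _ => by positivity)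
        (fun j _ => mul_nonneg (by positivity) (H0 j s hs)) fun j _ => ?_).trans
        (mul_le_mul_of_nonneg_right (geo_le (by norm_num) le_rfl J) (S0 s hs))
      rw [mul_pow, Real.sq_sqrt (div_nonneg (H0 j s hs) (by positivity))]
      have : (7 / 8 : ℝ) ^ j * (8 / 7) ^ j = 1 := by rw [← mul_pow]; norm_num
      calc _ = (7 / 8 : ℝ) ^ j * (8 / 7) ^ j * (B ^ 2 * (Hs j s / (4 ^ j * B) ^ 3)) := by
            rw [this, one_mul]
        _ = _ := by ring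
    have a3 := mul_le_mul_of_nonneg_left a1 hB.le
    have a4 := mul_le_mul_of_nonneg_left a2 hC
    simp only [hH] at *
    nlinarith
  · have iS := cS.intervalIntegrable_of_Icc (μ := volume) hab
    have a1 : ∫ s in a..b, (B * (1 + J * μ) + C5 * √(8 * S s)) ^ 2 ≤
        ∫ s in a..b, (2 * (B * (1 + J * μ)) ^ 2 + 16 * C5 ^ 2 * S s) :=
      intervalIntegral.integral_mono_on hab ((ce.pow 2).intervalIntegrable_of_Icc hab)
        (intervalIntegrable_const.add (iS.const_mul _)) fun s hs => by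
          have := Real.sq_sqrt (show 0 ≤ 8 * S s by linarith [S0 s hs])
          have e : (C5 * √(8 * S s)) ^ 2 = 8 * C5 ^ 2 * S s := by rw [mul_pow, this]; ring
          nlinarith [sq_nonneg (B * (1 + J * μ) - C5 * √(8 * S s))]
    rw [intervalIntegral.integral_add intervalIntegrable_const (iS.const_mul _),
      intervalIntegral.integral_const, intervalIntegral.integral_const_mul, smul_eq_mul] at a1
    have a2 : ∫ s in a..b, S s ≤ ∑ j ∈ Finset.range J,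
        (8 / 7) ^ j * B ^ 2 / (4 ^ j * B) ^ 3 * (w j * ∫ σ in (a - w j)..b, h j σ) := by
      rw [hS, intervalIntegral.integral_finsetSum fun j _ =>
        ((W j).1.intervalIntegrable_of_Icc hab).const_mul _]
      refine Finset.sum_le_sum fun j _ => ?_
      rw [intervalIntegral.integral_const_mul]
      exact mul_le_mul_of_nonneg_left (W j).2 (by positivity)
    nlinarith [mul_le_mul_of_nonneg_left a2 (show 0 ≤ 16 * C5 ^ 2 by positivity)]

/-- a constant before `a`, a given function after -/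
theorem pw_int {g : ℝ → ℝ} {a b w D : ℝ} (hab : a ≤ b) (hw : 0 ≤ w)
    (hg : IntervalIntegrable g volume a b) :
    IntervalIntegrable (fun σ => if σ ≤ a then D else g σ) volume (a - w) b ∧
      ∫ σ in (a - w)..b, (if σ ≤ a then D else g σ) = w * D + ∫ σ in a..b, g σ := by
  have e1 : EqOn (fun _ => D) (fun σ => if σ ≤ a then D else g σ) (uIoc (a - w) a) := fun σ hσ => by
    rw [uIoc_of_le (by linarith)] at hσ
    simp [hσ.2]
  have e2 : EqOn g (fun σ => if σ ≤ a then D else g σ) (uIoc a b) := fun σ hσ => by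
    rw [uIoc_of_le hab] at hσ
    simp [not_le.2 hσ.1]
  have i1 := (intervalIntegrable_const (μ := volume)).congr e1
  have i2 := hg.congr e2
  refine ⟨i1.trans i2, ?_⟩
  rw [← intervalIntegral.integral_add_adjacent_intervals i1 i2,
    ← intervalIntegral.integral_congr_ae (Eventually.of_forall fun σ hσ => e1 hσ),
    ← intervalIntegral.integral_congr_ae (Eventually.of_forall fun σ hσ => e2 hσ)]
  simp

end Crest.Agent.N207.NP

end
end

-- ▼ part N207/NP/Jet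
section

/-!
# Row 207, block P (helper85): jets of `Ric` from window integrals of the subsolution
-/

set_option autoImplicit false
set_option linter.dupNamespace false
set_option linter.unusedSectionVars false
open Set MeasureTheory Filter Topology
open scoped ContDiff

noncomputable section

namespace Crest.Agent.N207.NP

variable {M : Type*} [TopologicalSpace M] [CompactSpace M] [MeasurableSpace M]
  [OpensMeasurableSpace M] {H : HC M}

/-- the integrand of the window integrals -/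
def hf (H : HC M) (b X : ℝ → M → ℝ) (s0 D l u σ : ℝ) : ℝ :=
  if σ ≤ s0 then D else An H b (fun t x => X t x ^ 2) l u σ

namespace Rd

variable {a tt : ℕ → ℝ} {hi del K c Cv ν C cE : ℝ} {b : ℝ → M → ℝ} {b' : ℕ → ℝ → M → ℝ}
  {X X' : ℕ → ℝ → M → ℝ} (S : Rd H a tt hi del K c Cv b b') (hK : 4 ≤ K) (hE : 0 < cE)
  (hsm : K * cE * a 0 ≤ 5000 * c)
include S hK hE hsm

theorem past {m n : ℕ} {s σ β : ℝ} (hs : tt n ≤ s) (hσ : σ ≤ tt (m + 1)) (hβ : 8 * K ^ 2 * a n ^ 2 ≤ β)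
    (hw : s - σ ≤ cE * β / 40000) : 8 * a m ^ 2 ≤ β ∧ ∀ y, β / 2 ≤ y → √(a m) * y ^ (-(3 / 4) : ℝ) ≤
      (cE / 20000) ^ (3 / 4 : ℝ) * memH a tt n + 2 * √K * (√(a n) * β ^ (-(3 / 4) : ℝ)) := by
  have an := S.ap hK n
  have am := S.ap hK m
  have β0 : 0 < β := lt_of_lt_of_le (by positivity) hβ
  have m1 := memH_ge (a := a) S.smono.monotone n
  rcases le_or_gt n (m + 1) with h | h
  · have a1 : a m ≤ K * a n := by
      rw [S.a_succ hK m]; exact mul_le_mul_of_nonneg_left (S.a_anti hK h) (by linarith)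
    refine ⟨by nlinarith [pow_le_pow_left₀ am.le a1 2], fun y hy => ?_⟩
    have a2 : √(a m) ≤ √K * √(a n) := by
      rw [← Real.sqrt_mul (by linarith)]; exact Real.sqrt_le_sqrt a1
    have a3 : y ^ (-(3 / 4) : ℝ) ≤ 2 * β ^ (-(3 / 4) : ℝ) := by
      refine (Real.rpow_le_rpow_of_nonpos (by linarith) hy (by norm_num)).trans ?_
      rw [Real.div_rpow β0.le (by norm_num), Real.rpow_neg (by norm_num : (0 : ℝ) ≤ 2),
        div_inv_eq_mul, mul_comm]
      refine mul_le_mul_of_nonneg_right ?_ (Real.rpow_nonneg β0.le _)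
      simpa using Real.rpow_le_rpow_of_exponent_le (x := 2) (y := 3 / 4) (z := 1) (by norm_num)
        (by norm_num)
    have a4 := mul_le_mul a2 a3 (Real.rpow_nonneg (by linarith) _) (by positivity)
    have a5 : 0 ≤ (cE / 20000) ^ (3 / 4 : ℝ) * memH a tt n := by positivity
    linarith
  · have d1 := S.smono.monotone (show m + 2 ≤ n from h)
    have d2 := S.d_ge (m + 1)
    have d0 : 0 < tt (m + 2) - tt (m + 1) := sub_pos.2 (S.smono (by omega))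
    have d3 : tt (m + 2) - tt (m + 1) ≤ cE * β / 40000 := by linarith
    have a0 := S.a_anti hK m.zero_le
    refine ⟨?_, fun y hy => ?_⟩
    · have e := S.a_succ hK m
      have a1 := S.ap hK (m + 1)
      have b1 : K * cE * a m ≤ 5000 * c :=
        (mul_le_mul_of_nonneg_left a0 (by positivity)).trans hsm
      have b2 : 40000 * (c * a (m + 1)) ≤ cE * β := by
        have : c * a (m + 1) ≤ tt (m + 2) - tt (m + 1) := d2
        linarith
      refine le_of_mul_le_mul_left (le_trans ?_ b2) hE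
      have b3 := mul_le_mul_of_nonneg_right b1 a1.le
      have : cE * (8 * a m ^ 2) = 8 * (K * cE * a m * a (m + 1)) := by
        rw [pow_two]; nth_rewrite 2 [e]; ring
      linarith
    · have b1 : (tt (m + 2) - tt (m + 1)) / (cE / 20000) ≤ y := by
        rw [div_le_iff₀ (by positivity)]; nlinarith
      have b2 := Real.rpow_le_rpow_of_nonpos (by positivity) b1 (show (-(3 / 4) : ℝ) ≤ 0 by norm_num)
      rw [Real.rpow_neg (div_nonneg d0.le (by positivity)), Real.div_rpow d0.le (by positivity),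
        inv_div] at b2
      have b3 := mul_le_mul_of_nonneg_left (memH_term (a := a) S.smono.monotone h)
        (Real.rpow_nonneg (show 0 ≤ cE / 20000 by positivity) (3 / 4 : ℝ))
      have b4 := mul_le_mul_of_nonneg_left b2 (Real.sqrt_nonneg (a m))
      have b5 : 0 ≤ 2 * √K * (√(a n) * β ^ (-(3 / 4) : ℝ)) := by positivity
      have e : √(a m) * ((cE / 20000) ^ (3 / 4 : ℝ) / (tt (m + 2) - tt (m + 1)) ^ (3 / 4 : ℝ)) =
          (cE / 20000) ^ (3 / 4 : ℝ) * (√(a m) / (tt (m + 2) - tt (m + 1)) ^ (3 / 4 : ℝ)) := by ring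
      linarith

variable (O : H.Ok) (hd : 0 ≤ del) (hd1 : del ≤ 1 / 50) (hdE : del * cE ≤ 10000) (hC : 1 ≤ C)
  (hX : ∀ m, Xs H a tt hi ν C b m (X m) (X' m))
include O hd hd1 hdE hC hX

theorem slice {n : ℕ} {s σ βj C4 : ℝ} (hs : s ∈ Icc (tt n) (tt (n + 1))) {p : M}
    (hC4 : 8 * (C * (1 + (cE / 20000) ^ (3 / 4 : ℝ) + 2 * √K)) ^ 2 * Cv ≤ C4)
    (h1 : 8 * K ^ 2 * a n ^ 2 ≤ βj) (h2 : βj ≤ b s p) (h3 : b s p ≤ 512 * βj) (h4 : 8 * b s p ≤ hi)
    (h5 : tt 0 ≤ σ) (h6 : σ ≤ s) (h7 : s - σ ≤ cE * b s p / 40000) :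
    ∫ z in H.B s p (√(b s p) / 200), H.Q 0 σ z ∂H.vol σ ≤
      2 * hf H b (X n) (tt n) (C4 * a n * √(512 * βj)) (βj / 2) (min (1024 * βj) (hi / 4)) σ +
        C4 * memH a tt n ^ 2 * b s p ^ 2 := by
  have A := O.alg
  have β0 := (S.nk n).pos s hs p
  have an := S.ap hK n
  have Cv0 := S.Cv_nn
  have m1 := memH_ge (a := a) S.smono.monotone n
  set κ := (cE / 20000) ^ (3 / 4 : ℝ) with hκ
  have κ0 : 0 ≤ κ := by positivity
  have sK := Real.sqrt_nonneg K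
  set C' := C * (1 + κ + 2 * √K) with hC'
  have CC : C ≤ C' := le_mul_of_one_le_right (by linarith) (by linarith)
  have win : ∀ m ≤ n, σ ∈ Icc (tt m) (tt (m + 1)) → ∀ z ∈ H.B s p (√(b s p) / 200),
      b s p / 2 ≤ b σ z ∧ b σ z ≤ 2 * b s p := fun m hm hσ z hz => by
    have P := (S.past hK hE hsm hs.1 hσ.2 (h1.trans h2) h7).1
    refine S.win A O.dist hd hd1 hm hs hσ h6 (by linarith) (fun k p1 _ => ?_) ?_ hz
    · have := pow_le_pow_left₀ (S.ap hK k).le (S.a_anti hK p1) 2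
      nlinarith [sq_nonneg (a m)]
    · have := mul_le_mul_of_nonneg_left h7 hd
      nlinarith
  unfold hf
  split_ifs with hσ
  · obtain ⟨m, hm, hσm⟩ := exists_strip h5 n (h6.trans hs.2)
    have P := S.past hK hE hsm hs.1 hσm.2 (h1.trans h2) h7
    have hm' := (S.nk m).st.mem hσm
    set y := √(a n) * b s p ^ (-(3 / 4) : ℝ) with hy
    have y0 : 0 ≤ y := by positivity
    have a1 := int_le_an A O.int hm' (f := H.Q 0)
      (g := fun _ _ => 2 * C' ^ 2 * (memH a tt n ^ 2 + y ^ 2))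
      ((S.nk m).tm.fix A hσm) (A.s0_Q hm' 0) (A.s0_const _) (O.evo.Q_nonneg 0 σ hm')
      (win m hm hσm) fun z l u => by
        have b1 := (hX m).ge σ hσm z (by linarith [P.1]) (by linarith)
        have b2 := (hX m).bd σ hσm z (by linarith [P.1]) (by linarith)
        have b3 := mul_le_mul_of_nonneg_left (P.2 _ l) (show 0 ≤ C by linarith)
        have b4 := mul_le_mul_of_nonneg_left (memH_mono (a := a) S.smono.monotone hm)
          (show 0 ≤ C by linarith)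
        have b5 : √(H.Q 0 σ z) ≤ C' * (memH a tt n + y) := by
          have c1 : 0 ≤ C * (2 * √K * memH a tt n + (1 + κ) * y) := by positivity
          rw [hC']; nlinarith
        have b6 := (Real.sqrt_le_left (by positivity)).1 b5
        nlinarith [mul_nonneg (sq_nonneg C') (sq_nonneg (memH a tt n - y))]
    have a2 := S.an_const O.int hσm (w := 2 * C' ^ 2 * (memH a tt n ^ 2 + y ^ 2)) (l := b s p / 2)
      (u := 2 * b s p) (by positivity) (by nlinarith [P.1, sq_nonneg (a m)]) (by linarith)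
    have a3 : y ^ 2 * b s p ^ 2 = a n * √(b s p) := by
      rw [hy, mul_pow, Real.sq_sqrt an.le, mul_assoc, ← Real.rpow_natCast (_ ^ _),
        ← Real.rpow_mul β0.le, ← Real.rpow_natCast (b s p), ← Real.rpow_add β0, Real.sqrt_eq_rpow]
      norm_num
    have a4 : a n * √(b s p) ≤ a n * √(512 * βj) :=
      mul_le_mul_of_nonneg_left (Real.sqrt_le_sqrt h3) an.le
    have a5 : 2 * C' ^ 2 * (memH a tt n ^ 2 + y ^ 2) * (Cv * (2 * b s p) ^ 2) =
        8 * C' ^ 2 * Cv * (memH a tt n ^ 2 * b s p ^ 2 + a n * √(b s p)) := by rw [← a3]; ring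
    have a6 := mul_le_mul hC4 (add_le_add_right a4 (memH a tt n ^ 2 * b s p ^ 2)) (by positivity)
      (le_trans (by positivity) hC4)
    have a7 : 0 ≤ C4 * (a n * √(512 * βj)) := mul_nonneg (le_trans (by positivity) hC4) (by positivity)
    linarith
  · have hσn : σ ∈ Icc (tt n) (tt (n + 1)) := ⟨(not_le.1 hσ).le, h6.trans hs.2⟩
    have hm' := (S.nk n).st.mem hσn
    have sb := (S.nk n).tm.fix A hσn
    have sX := A.s0_pow 2 ((hX n).xc.tm.fix A hσn)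
    have r1 : 8 * a n ^ 2 ≤ b s p := by
      have := mul_le_mul_of_nonneg_right (one_le_pow₀ (n := 2) (show 1 ≤ K by linarith))
        (sq_nonneg (a n))
      linarith
    have a1 := int_le_an A O.int hm' (f := H.Q 0)
      (g := fun t x => 2 * X n t x ^ 2 + 2 * (C * memH a tt n) ^ 2) sb (A.s0_Q hm' 0)
      (A.s0_add (A.s0_cmul 2 sX) (A.s0_const _)) (O.evo.Q_nonneg 0 σ hm')
      (win n le_rfl hσn) fun z l u => by
        have b1 := (hX n).ge σ hσn z (by linarith) (by linarith)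
        have b2 := (hX n).xc.nn σ hσn z
        have b6 := (Real.sqrt_le_left (add_nonneg b2 (by positivity))).1 b1
        exact b6.trans (by rw [← mul_add]; exact add_sq_le)
    have a2 := S.an_const O.int hσn (w := 2 * (C * memH a tt n) ^ 2) (l := b s p / 2)
      (u := 2 * b s p) (by positivity) (by linarith [sq_nonneg (a n)]) (by linarith)
    have a3 := an_mono A O.int hm' (f := fun t x => X n t x ^ 2) (g := fun t x => X n t x ^ 2) sb sX sX
      (l := b s p / 2) (u := 2 * b s p) (l' := βj / 2) (u' := min (1024 * βj) (hi / 4))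
      (fun _ => sq_nonneg _) fun x l u =>
        Or.inr ⟨by linarith, le_min (by linarith) (by linarith), le_rfl⟩
    rw [An, integral_add ((A.integrable O.int hm' sX).const_mul 2).integrableOn
      (A.integrable O.int hm' (A.s0_const _)).integrableOn, integral_const_mul] at a1
    have a4 : 8 * C ^ 2 * Cv ≤ C4 := le_trans (by gcongr) hC4
    have a5 := mul_le_mul_of_nonneg_right a4
      (show 0 ≤ memH a tt n ^ 2 * b s p ^ 2 by positivity)
    simp only [An] at a2 a3 ⊢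
    nlinarith

omit hK hE hsm hd hd1 hdE hC in
theorem hf_int (n : ℕ) {w : ℝ} (hw : 0 ≤ w) (D l u : ℝ) :
    IntervalIntegrable (hf H b (X n) (tt n) D l u) volume (tt n - w) (tt (n + 1)) ∧
      ∫ σ in (tt n - w)..(tt (n + 1)), hf H b (X n) (tt n) D l u σ =
        w * D + TA H (tt n) (tt (n + 1)) b (fun t x => X n t x ^ 2) l u :=
  pw_int (S.nk n).st.2.1.le hw
    (an_ii O.alg O.int (S.nk n).st (S.nk n).sm (O.alg.sm_pow 2 (hX n).xc.tm.sm) l u)

omit S hK hE hsm hd hd1 hdE hC O hX in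
theorem hf_nn {s0 D l u : ℝ} {Y : ℝ → M → ℝ} (hD : 0 ≤ D) (σ : ℝ) : 0 ≤ hf H b Y s0 D l u σ := by
  unfold hf; split_ifs
  · exact hD
  · exact an_nn fun _ => sq_nonneg _

theorem jet {t0 ε0 r0 : ℝ} {Ck : ℕ → ℝ} (R : ER H t0 ε0 cE r0 Ck) (hr : 0 < r0)
    (ht0 : t0 ≤ tt 0) (he : 64 * del ^ 2 * Cv ≤ ε0) (hh : hi ≤ r0 ^ 2) {n k : ℕ} (hn : 1 ≤ n)
    {s βj C4 CM : ℝ} (hs : s ∈ Icc (tt n) (tt (n + 1))) {p : M}
    (hC4 : 8 * (C * (1 + (cE / 20000) ^ (3 / 4 : ℝ) + 2 * √K)) ^ 2 * Cv ≤ C4)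
    (hCM : Ck k * 200 ^ (6 + 2 * k) ≤ CM)
    (h1 : 8 * K ^ 2 * a n ^ 2 ≤ βj) (h2 : βj ≤ b s p) (h3 : b s p ≤ 512 * βj) (h4 : 8 * b s p ≤ hi)
    (h5 : cE * b s p / 40000 ≤ tt 1 - tt 0) :
    √(b s p) ^ k * √(H.Q k s p) ≤ √(CM * C4 * cE) * memH a tt n + √(2 * CM) *
      √((∫ σ in (s - cE * (512 * βj) / 40000)..s, hf H b (X n) (tt n) (C4 * a n * √(512 * βj))
        (βj / 2) (min (1024 * βj) (hi / 4)) σ) / βj ^ 3) := by
  have β0 := (S.nk n).pos s hs p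
  have an := S.ap hK n
  have βj0 : 0 < βj := lt_of_lt_of_le (by positivity) h1
  have C40 : 0 ≤ C4 := le_trans (by have := S.Cv_nn; positivity) hC4
  have m1 := memH_ge (a := a) S.smono.monotone n
  have k0 := (R k).1
  have CM0 : 0 ≤ CM := le_trans (by positivity) hCM
  have r1 : 4 * a n ^ 2 ≤ b s p := by
    have : 1 ≤ K ^ 2 := by nlinarith
    nlinarith [sq_nonneg (a n)]
  have q := (S.er O R hr ht0 hd hd1 he hh hs r1 (by linarith) k).2
  have e1 : cE * (√(b s p) / 200) ^ 2 = cE * b s p / 40000 := by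
    rw [div_pow, Real.sq_sqrt β0.le]; ring
  have e2 : (√(b s p) / 200) ^ (6 + 2 * k) = b s p ^ 3 * b s p ^ k / 200 ^ (6 + 2 * k) := by
    rw [div_pow, show 6 + 2 * k = 2 * (3 + k) by ring, pow_mul, Real.sq_sqrt β0.le, pow_add]
  rw [e1, e2] at q
  set w := cE * b s p / 40000 with hw
  set wj := cE * (512 * βj) / 40000 with hwj
  have w0 : 0 ≤ w := by positivity
  have w1 : w ≤ wj := by rw [hw, hwj]; gcongr
  set g := hf H b (X n) (tt n) (C4 * a n * √(512 * βj)) (βj / 2) (min (1024 * βj) (hi / 4)) with hg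
  have g0 : ∀ σ, 0 ≤ g σ := hf_nn (by positivity)
  have gi : IntervalIntegrable g volume (s - wj) s :=
    (S.hf_int O hX n (w0.trans w1) _ _ _).1.mono_set (by
      rw [uIcc_of_le (by linarith), uIcc_of_le (by linarith [hs.1, hs.2])]
      exact Icc_subset_Icc (by linarith [hs.1]) hs.2)
  have gi1 : IntervalIntegrable g volume (s - w) s := gi.mono_set (by
    rw [uIcc_of_le (by linarith), uIcc_of_le (by linarith)]
    exact Icc_subset_Icc (by linarith) le_rfl)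
  have t1 := S.smono.monotone hn
  have a1 : ∫ σ in (s - w)..s, ∫ z in H.B s p (√(b s p) / 200), H.Q 0 σ z ∂H.vol σ ≤
      ∫ σ in (s - w)..s, (2 * g σ + C4 * memH a tt n ^ 2 * b s p ^ 2) := by
    rw [intervalIntegral.integral_of_le (by linarith), intervalIntegral.integral_of_le (by linarith)]
    refine integral_mono_of_nonneg ?_ ((gi1.const_mul 2).add intervalIntegrable_const).1 ?_
    · filter_upwards [ae_restrict_mem measurableSet_Ioc] with σ hσ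
      obtain ⟨m, -, hm⟩ := exists_strip (tt := tt) (σ := σ) (by linarith [hσ.1, hs.1]) n
        (hσ.2.trans hs.2)
      exact integral_nonneg (O.evo.Q_nonneg 0 σ ((S.nk m).st.mem hm))
    · filter_upwards [ae_restrict_mem measurableSet_Ioc] with σ hσ
      exact S.slice hK hE hsm O hd hd1 hdE hC hX hs hC4 h1 h2 h3 h4 (by linarith [hσ.1, hs.1]) hσ.2
        (by linarith [hσ.1])
  rw [intervalIntegral.integral_add (gi1.const_mul 2) intervalIntegrable_const,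
    intervalIntegral.integral_const_mul, intervalIntegral.integral_const, smul_eq_mul,
    sub_sub_cancel] at a1
  have a2 : ∫ σ in (s - w)..s, g σ ≤ ∫ σ in (s - wj)..s, g σ :=
    intervalIntegral.integral_mono_interval (by linarith) (by linarith) le_rfl
      (Eventually.of_forall g0) gi
  set Hj := ∫ σ in (s - wj)..s, g σ with hHj
  have H0 : 0 ≤ Hj := intervalIntegral.integral_nonneg (by linarith) fun σ _ => g0 σ
  have a3 : b s p ^ k * H.Q k s p ≤ CM * C4 * cE * memH a tt n ^ 2 + 2 * CM * (Hj / βj ^ 3) := by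
    have b1 := q.trans (mul_le_mul_of_nonneg_left (a1.trans
      (add_le_add (mul_le_mul_of_nonneg_left a2 (by norm_num)) le_rfl)) (by positivity))
    refine (mul_le_mul_of_nonneg_left b1 (pow_pos β0 k).le).trans ?_
    have e3 : b s p ^ k * (Ck k / (b s p ^ 3 * b s p ^ k / 200 ^ (6 + 2 * k)) *
        (2 * Hj + w * (C4 * memH a tt n ^ 2 * b s p ^ 2))) = Ck k * 200 ^ (6 + 2 * k) *
          (C4 * cE * memH a tt n ^ 2 / 40000 + 2 * (Hj / b s p ^ 3)) := by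
      rw [hw]; field_simp; ring
    rw [e3]
    have b2 : Hj / b s p ^ 3 ≤ Hj / βj ^ 3 := by gcongr
    have b3 : 0 ≤ C4 * cE * memH a tt n ^ 2 := by positivity
    have b4 : 0 ≤ Hj / b s p ^ 3 := by positivity
    refine (mul_le_mul hCM (show _ ≤ C4 * cE * memH a tt n ^ 2 + 2 * (Hj / βj ^ 3) by linarith)
      (by linarith) CM0).trans_eq ?_
    ring
  rw [← Real.sqrt_mul (by positivity), ← Real.sqrt_sq (show 0 ≤ memH a tt n by linarith),
    ← Real.sqrt_mul (by positivity), ← Real.sqrt_sq (show 0 ≤ √(b s p) ^ k by positivity),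
    ← Real.sqrt_mul (sq_nonneg _), ← pow_mul, mul_comm k 2, pow_mul, Real.sq_sqrt β0.le]
  refine (Real.sqrt_le_sqrt a3).trans ?_
  have u0 : 0 ≤ CM * C4 * cE * memH a tt n ^ 2 := by positivity
  have u1 : 0 ≤ 2 * CM * (Hj / βj ^ 3) := by positivity
  rw [Real.sqrt_le_left (by positivity), add_sq, Real.sq_sqrt u0, Real.sq_sqrt u1]
  have : 0 ≤ 2 * √(CM * C4 * cE * memH a tt n ^ 2) * √(2 * CM * (Hj / βj ^ 3)) := by positivity
  linarith

end Rd

end Crest.Agent.N207.NP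

end
end

-- ▼ part N207/NP/PH1
section

/-!
# Row 207, block P (helper85): the estimates on one strip
-/

set_option autoImplicit false
set_option linter.dupNamespace false
set_option linter.unusedSectionVars false
open Set MeasureTheory Filter Topology
open scoped ContDiff

noncomputable section

namespace Crest.Agent.N207.NP

variable {M : Type*} [TopologicalSpace M] [CompactSpace M] [MeasurableSpace M]
  [OpensMeasurableSpace M] {H : HC M}

theorem four_rpow_le : (4 : ℝ) ^ (7 / 4 : ℝ) ≤ 49 / 4 := by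
  refine le_of_pow_le_pow_left₀ (n := 4) (by norm_num) (by norm_num) ?_
  rw [← Real.rpow_natCast, ← Real.rpow_mul (by norm_num)]
  norm_num

theorem one_le_tail {y : ℝ} {j : ℕ} (h0 : 0 < y) (h : y ≤ 4096 * 4 ^ j) :
    1 ≤ 4096 ^ 2 * (49 / 4) ^ j * y ^ (-(7 / 4) : ℝ) := by
  rw [Real.rpow_neg h0.le, ← div_eq_mul_inv, one_le_div (Real.rpow_pos_of_pos h0 _)]
  refine (Real.rpow_le_rpow h0.le h (by norm_num)).trans ?_
  rw [Real.mul_rpow (by norm_num) (by positivity), ← Real.rpow_natCast 4 j,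
    ← Real.rpow_mul (by norm_num), mul_comm (j : ℝ), Real.rpow_mul (by norm_num), Real.rpow_natCast]
  refine mul_le_mul ?_ (pow_le_pow_left₀ (by positivity) four_rpow_le j) (by positivity)
    (by positivity)
  rw [← Real.rpow_natCast]
  exact Real.rpow_le_rpow_of_exponent_le (by norm_num) (by norm_num)

/-- the two estimates of `est` -/
def Est (H : HC M) (C0 : ℝ) : Prop :=
  ∀ {s0 s1 lo hi del ν D Cv B0 : ℝ} {b b' X X' : ℝ → M → ℝ},
    Xd H s0 s1 lo hi del ν D Cv b b' X X' → lo ≤ B0 →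
    TA H s0 s1 b (fun t x => (b t x / B0) ^ (-(7 / 4) : ℝ) * X t x ^ 2) (2 * B0) hi ≤
      C0 * (TA H s0 s1 b (fun t x => X t x ^ 2) B0 (2 * B0) + Cv * D ^ 2 * (B0 * √B0)) ∧
    ∀ ε B1 : ℝ, 0 < ε → ε ≤ 1 / 4 → 11 * del + 3 * ν ≤ ε → B0 ≤ B1 → B1 ≤ hi →
      TA H s0 s1 b (fun t x => X t x ^ 2) (2 * B0) B1 ≤ C0 / ε * (B1 / B0) ^ ε *
        (TA H s0 s1 b (fun t x => X t x ^ 2) B0 (2 * B0) +
          (B1 / B0) ^ 2 * (Cv * D ^ 2 * (B0 * √B0)))

/-- the conclusion of `pigeon` -/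
def Pg (θ q C : ℝ) (N : ℕ) : Prop :=
  ∀ (l S : ℕ → ℝ) (D : ℝ), 0 ≤ D → 0 ≤ l 0 → 0 ≤ S 0 →
    (∀ i < N, S i + l (i + 1) ≤ S (i + 1)) → S N ≤ C * q ^ N * l 0 + D →
    ∃ i < N, l (i + 1) ≤ θ * (l 0 + S i) + D

/-- a good layer -/
theorem layer (A : H.Alg) (I : H.Intg) {C0 θ ε s0 s1 lo hi del ν D Cv Bs : ℝ} {N : ℕ}
    {b b' X X' : ℝ → M → ℝ} (hE : Est H C0) (hC0 : 0 < C0)
    (hP : Pg θ (4 ^ ε) (3 * C0 / ε) N) (hθ : 0 ≤ θ) (Z : Xd H s0 s1 lo hi del ν D Cv b b' X X')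
    (e0 : 0 < ε) (e1 : ε ≤ 1 / 4) (e2 : 11 * del + 3 * ν ≤ ε) (h1 : lo ≤ Bs)
    (h2 : 3 * 4 ^ N * Bs ≤ hi) :
    ∃ i < N, TA H s0 s1 b (fun t x => (b t x / (4 ^ (i + 1) * Bs)) ^ (-(7 / 4) : ℝ) * X t x ^ 2)
      (2 * (4 ^ (i + 1) * Bs)) hi ≤
        C0 * (2 * θ * TA H s0 s1 b (fun t x => X t x ^ 2) Bs (3 * 4 ^ i * Bs) +
          (3 * C0 / ε * (4 ^ ε) ^ N * (3 * 4 ^ N) ^ 2 + 8 ^ N) * (Cv * D ^ 2 * (Bs * √Bs))) := by
  have B0 : 0 < Bs := Z.lo_pos.trans_le h1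
  have Nn := Z.nk
  have sX := A.sm_pow 2 Z.xc.tm.sm
  have nn : ∀ l u, 0 ≤ TA H s0 s1 b (fun t x => X t x ^ 2) l u := fun l u =>
    ta_nn Nn.st.2.1.le fun _ _ _ => sq_nonneg _
  have d0 : 0 ≤ Cv * D ^ 2 * (Bs * √Bs) := by have := Z.Cv_nn; positivity
  have p4 : ∀ i : ℕ, Bs ≤ 4 ^ i * Bs := fun i =>
    le_mul_of_one_le_left B0.le (one_le_pow₀ (by norm_num))
  have a1 := (hE Z h1).2 ε (3 * 4 ^ N * Bs) e0 e1 e2 (by linarith [p4 N]) h2
  rw [mul_div_cancel_right₀ _ B0.ne'] at a1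
  have a2 : (3 * 4 ^ N : ℝ) ^ ε ≤ 3 * (4 ^ ε) ^ N := by
    rw [Real.mul_rpow (by norm_num) (by positivity), ← Real.rpow_natCast 4 N,
      ← Real.rpow_mul (by norm_num), mul_comm (N : ℝ), Real.rpow_mul (by norm_num),
      Real.rpow_natCast]
    refine mul_le_mul_of_nonneg_right ?_ (by positivity)
    simpa using Real.rpow_le_rpow_of_exponent_le (x := 3) (y := ε) (z := 1) (by norm_num)
      (by linarith)
  obtain ⟨i, hi1, hi2⟩ := hP
    (fun i => TA H s0 s1 b (fun t x => X t x ^ 2) (4 ^ i * Bs) (2 * (4 ^ i * Bs)))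
    (fun i => TA H s0 s1 b (fun t x => X t x ^ 2) (2 * Bs) (3 * 4 ^ i * Bs))
    (3 * C0 / ε * (4 ^ ε) ^ N * (3 * 4 ^ N) ^ 2 * (Cv * D ^ 2 * (Bs * √Bs))) (by positivity)
    (nn _ _) (nn _ _) (fun i _ => ta_add A I Nn.st Nn.sm sX (fun _ _ _ => sq_nonneg _)
      (by rw [pow_succ]; linarith [p4 i]) (by linarith [p4 (i + 1)])
      (by rw [pow_succ]; linarith [p4 i]) (by rw [pow_succ]; linarith [p4 i])) (by
        simp only [pow_zero, one_mul]
        refine a1.trans ((mul_le_mul_of_nonneg_right (mul_le_mul_of_nonneg_left a2 (by positivity))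
          (add_nonneg (nn _ _) (by positivity))).trans_eq ?_)
        ring)
  refine ⟨i, hi1, (hE Z (h1.trans (p4 _))).1.trans (mul_le_mul_of_nonneg_left ?_ hC0.le)⟩
  have m : ∀ l u, Bs ≤ l → u ≤ 3 * 4 ^ i * Bs → TA H s0 s1 b (fun t x => X t x ^ 2) l u ≤
      TA H s0 s1 b (fun t x => X t x ^ 2) Bs (3 * 4 ^ i * Bs) := fun l u p q =>
    ta_mono A I Nn.st Nn.sm sX sX (fun _ _ _ => sq_nonneg _) fun t ht x p1 q1 =>
      Or.inr ⟨p.trans p1, q1.trans q, le_rfl⟩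
  have b1 := m (4 ^ 0 * Bs) (2 * (4 ^ 0 * Bs)) (p4 0) (by rw [pow_zero]; linarith [p4 i])
  have b2 := m (2 * Bs) _ (by linarith) le_rfl
  have b3 := mul_le_mul_of_nonneg_left (add_le_add b1 b2) hθ
  have b4 : 4 ^ (i + 1) * Bs * √(4 ^ (i + 1) * Bs) ≤ 8 ^ N * (Bs * √Bs) := by
    have e : √(4 ^ (i + 1) * Bs) = 2 ^ (i + 1) * √Bs := by
      rw [Real.sqrt_mul (by positivity), show (4 : ℝ) = 2 ^ 2 by norm_num, ← pow_mul, mul_comm 2,
        pow_mul, Real.sqrt_sq (by positivity)]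
    have e2 : (4 : ℝ) ^ (i + 1) * 2 ^ (i + 1) ≤ 8 ^ N := by
      rw [← mul_pow]; exact pow_le_pow_right₀ (by norm_num) hi1 |>.trans' (by norm_num)
    rw [e]
    nlinarith [mul_le_mul_of_nonneg_right e2 (show 0 ≤ Bs * √Bs by positivity)]
  have b5 := mul_le_mul_of_nonneg_left b4 (show 0 ≤ Cv * D ^ 2 by have := Z.Cv_nn; positivity)
  exact (add_le_add (hi2.trans (add_le_add b3 le_rfl)) b5).trans_eq (by ring)

namespace Rd

variable {a tt : ℕ → ℝ} {hi del K c Cv ν C cE : ℝ} {b : ℝ → M → ℝ} {b' : ℕ → ℝ → M → ℝ}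
  {X X' : ℕ → ℝ → M → ℝ} (S : Rd H a tt hi del K c Cv b b')
include S

theorem crude (O : H.Ok) {t0 ε0 r0 : ℝ} {Ck : ℕ → ℝ} (R : ER H t0 ε0 cE r0 Ck) (hr : 0 < r0)
    (ht0 : t0 ≤ tt 0) (hd : 0 ≤ del) (hd1 : del ≤ 1 / 50) (he : 64 * del ^ 2 * Cv ≤ ε0)
    (hh : hi ≤ r0 ^ 2) {n k : ℕ} {s CM : ℝ} (hs : s ∈ Icc (tt n) (tt (n + 1))) {p : M}
    (h1 : 4 * a n ^ 2 ≤ b s p) (h2 : 4 * b s p ≤ hi) (hCM : Ck k * 200 ^ (6 + 2 * k) ≤ CM) :
    √(b s p) ^ k * √(H.Q k s p) ≤ √CM / √(b s p) := by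
  have β0 := (S.nk n).pos s hs p
  have q := (S.er O R hr ht0 hd hd1 he hh hs h1 h2 k).1
  have k0 := (R k).1
  have e2 : (√(b s p) / 200) ^ (2 + 2 * k) = b s p * b s p ^ k / 200 ^ (2 + 2 * k) := by
    rw [div_pow, show 2 + 2 * k = 2 * (1 + k) by ring, pow_mul, Real.sq_sqrt β0.le, pow_add, pow_one]
  have a1 : Ck k * 200 ^ (2 + 2 * k) ≤ CM :=
    le_trans (mul_le_mul_of_nonneg_left (pow_le_pow_right₀ (by norm_num) (by omega)) k0.le) hCM
  rw [← Real.sqrt_div' _ β0.le, ← Real.sqrt_sq (show 0 ≤ √(b s p) ^ k by positivity),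
    ← Real.sqrt_mul (sq_nonneg _), ← pow_mul, mul_comm k 2, pow_mul, Real.sq_sqrt β0.le]
  refine Real.sqrt_le_sqrt ((mul_le_mul_of_nonneg_left q (pow_pos β0 k).le).trans ?_)
  rw [e2]
  refine le_trans (le_of_eq ?_) (div_le_div_of_nonneg_right a1 β0.le)
  field_simp

theorem ebH_crude {m n : ℕ} {s B h CM L : ℝ} (hK : 4 ≤ K) (hB : 0 < B) (hL : B ≤ L * a n ^ 2)
    (hcr : ∀ p, B ≤ b s p → b s p ≤ h → ∀ k ≤ m, √(b s p) ^ k * √(H.Q k s p) ≤ √CM / √(b s p)) :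
    EbH H b m s B h ((L * a 0 + 2 * √CM * √L) * a n) := by
  have an := S.ap hK n
  have sB : 0 < √B := Real.sqrt_pos.2 hB
  have L0 : 0 ≤ L := nonneg_of_mul_nonneg_left (hB.le.trans hL) (by positivity)
  refine ⟨fun j => √CM / √B * (1 / 2) ^ j, fun j => by positivity, fun j p h1 _ h3 k hk => ?_,
    fun N => ?_⟩
  · refine (hcr p (le_trans (le_mul_of_one_le_left hB.le (one_le_pow₀ (by norm_num))) h1) h3 k
      hk).trans ?_
    have e : 2 ^ j * √B ≤ √(b s p) := Real.le_sqrt_of_sq_le (by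
      rw [mul_pow, Real.sq_sqrt hB.le, ← pow_mul, mul_comm j 2, pow_mul]; norm_num; exact h1)
    refine (div_le_div_of_nonneg_left (Real.sqrt_nonneg _) (by positivity) e).trans_eq ?_
    simp only [one_div, inv_pow]; field_simp
  · rw [← Finset.mul_sum]
    have a1 := mul_le_mul_of_nonneg_left (sum_geometric_two_le N)
      (show 0 ≤ √CM * √B by positivity)
    have a2 : √B ≤ √L * a n := by
      rw [← Real.sqrt_sq an.le, ← Real.sqrt_mul L0]; exact Real.sqrt_le_sqrt hL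
    have a3 := mul_le_mul_of_nonneg_left a2 (Real.sqrt_nonneg CM)
    have a4 := mul_le_mul_of_nonneg_left (S.a_anti hK n.zero_le) (mul_nonneg L0 an.le)
    have e : B * (1 + √CM / √B * ∑ j ∈ Finset.range N, (1 / 2 : ℝ) ^ j) =
        B + √CM * √B * ∑ j ∈ Finset.range N, (1 / 2 : ℝ) ^ j := by
      nth_rewrite 1 [← Real.mul_self_sqrt hB.le]
      field_simp
      linear_combination Real.mul_self_sqrt hB.le
    rw [e]; nlinarith

/-- the error function on one strip -/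
theorem strip (hK : 4 ≤ K) (hE : 0 < cE) (hsm : K * cE * a 0 ≤ 5000 * c) (O : H.Ok) (hd : 0 ≤ del)
    (hd1 : del ≤ 1 / 50) (hdE : del * cE ≤ 10000) (hC : 1 ≤ C)
    (hX : ∀ m, Xs H a tt hi ν C b m (X m) (X' m)) {t0 ε0 r0 : ℝ} {Ck : ℕ → ℝ}
    (R : ER H t0 ε0 cE r0 Ck) (hr : 0 < r0) (ht0 : t0 ≤ tt 0) (he : 64 * del ^ 2 * Cv ≤ ε0)
    (hh : hi ≤ r0 ^ 2) {m n J : ℕ} (hn : 1 ≤ n) {C4 CM B0 h : ℝ}
    (hC4 : 8 * (C * (1 + (cE / 20000) ^ (3 / 4 : ℝ) + 2 * √K)) ^ 2 * Cv ≤ C4)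
    (hCM : ∀ k ≤ m, Ck k * 200 ^ (6 + 2 * k) ≤ CM) (h1 : 8 * K ^ 2 * a n ^ 2 ≤ 4 * B0)
    (h2 : 8 * h ≤ hi) (h3 : cE * h / 40000 ≤ tt 1 - tt 0) (hJ : h < 4 ^ J * (4 * B0)) :
    ∃ e : ℝ → ℝ, ContinuousOn e (Icc (tt n) (tt (n + 1))) ∧
      (∀ s ∈ Icc (tt n) (tt (n + 1)), EbH H b m s (4 * B0) h (e s)) ∧
      ∫ s in tt n..tt (n + 1), e s ^ 2 ≤
        2 * (4 * B0 * (1 + J * (√(CM * C4 * cE) * memH a tt n))) ^ 2 * (tt (n + 1) - tt n) +
        256 * CM * (cE ^ 2 * C4 * (a n * (4 * B0 * √(4 * B0))) + 4096 ^ 2 * cE *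
          TA H (tt n) (tt (n + 1)) b (fun t x => (b t x / B0) ^ (-(7 / 4) : ℝ) * X n t x ^ 2)
            (2 * B0) (hi / 4)) := by
  have A := O.alg
  have an := S.ap hK n
  have B4 : 0 < 4 * B0 := lt_of_lt_of_le (by positivity) h1
  have B00 : 0 < B0 := by linarith
  have C40 : 0 ≤ C4 := le_trans (by have := S.Cv_nn; positivity) hC4
  have m1 := memH_ge (a := a) S.smono.monotone n
  have CM0 : 0 ≤ CM := le_trans (by have := (R 0).1; positivity) (hCM 0 m.zero_le)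
  have I := fun j : ℕ => S.hf_int O hX n (w := cE * (512 * (4 ^ j * (4 * B0))) / 40000)
    (by positivity) (C4 * a n * √(512 * (4 ^ j * (4 * B0)))) (4 ^ j * (4 * B0) / 2)
    (min (1024 * (4 ^ j * (4 * B0))) (hi / 4))
  obtain ⟨e, e1, e2, e3⟩ := err_fun (μ := √(CM * C4 * cE) * memH a tt n) (C5 := √(2 * CM)) J
    (S.nk n).st.2.1.le B4 (by positivity) (Real.sqrt_nonneg _) (fun j => by positivity)
    (fun j => (I j).1) fun j s _ => hf_nn (by positivity) s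
  refine ⟨e, e1, fun s hs => ⟨_, fun j => ?_, fun j p p1 p2 p3 k hk => ?_, e2 s hs⟩, e3.trans ?_⟩
  · split_ifs
    · positivity
    · exact le_rfl
  · have p4 : 4 * B0 ≤ 4 ^ j * (4 * B0) := le_mul_of_one_le_left B4.le (one_le_pow₀ (by norm_num))
    have hj : j < J := (pow_lt_pow_iff_right₀ (show (1 : ℝ) < 4 by norm_num)).1
      (lt_of_mul_lt_mul_right ((p1.trans p3).trans_lt hJ) B4.le)
    rw [if_pos hj]
    exact S.jet hK hE hsm O hd hd1 hdE hC hX R hr ht0 he hh hn hs hC4 (hCM k hk) (h1.trans p4) p1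
      (by linarith) (by linarith) (le_trans (by gcongr) h3)
  · rw [Real.sq_sqrt (by positivity)]
    set T := TA H (tt n) (tt (n + 1)) b (fun t x => (b t x / B0) ^ (-(7 / 4) : ℝ) * X n t x ^ 2)
      (2 * B0) (hi / 4) with hT
    have N := S.nk n
    have sX := A.sm_pow 2 (hX n).xc.tm.sm
    have sT := A.sm_mul (A.sm_comp isOpen_Ioi (cd_rpow (-(7 / 4)))
      (f := fun t x => b t x / B0) (fun t ht x => div_pos (N.pos t ht x) B00)
        (by simpa [div_eq_inv_mul] using A.sm_cmul B0⁻¹ N.sm)) sX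
    have T0 : 0 ≤ T := ta_nn N.st.2.1.le fun t ht x => by have := N.pos t ht x; positivity
    set Y := cE ^ 2 * C4 * (a n * (4 * B0 * √(4 * B0))) + 4096 ^ 2 * cE * T with hY
    have Y0 : 0 ≤ Y := by positivity
    have a1 : ∑ j ∈ Finset.range J, (8 / 7) ^ j * (4 * B0) ^ 2 / (4 ^ j * (4 * B0)) ^ 3 *
        (cE * (512 * (4 ^ j * (4 * B0))) / 40000 *
          ∫ σ in (tt n - cE * (512 * (4 ^ j * (4 * B0))) / 40000)..tt (n + 1),
            hf H b (X n) (tt n) (C4 * a n * √(512 * (4 ^ j * (4 * B0)))) (4 ^ j * (4 * B0) / 2)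
              (min (1024 * (4 ^ j * (4 * B0))) (hi / 4)) σ) ≤
        ∑ j ∈ Finset.range J, Y * (7 / 8) ^ j := by
      refine Finset.sum_le_sum fun j _ => ?_
      rw [(I j).2]
      have p4 : 4 * B0 ≤ 4 ^ j * (4 * B0) := le_mul_of_one_le_left B4.le (one_le_pow₀ (by norm_num))
      have b1 := ta_mono A O.int N.st N.sm sX (A.sm_cmul (4096 ^ 2 * (49 / 4) ^ j) sT)
        (l := 4 ^ j * (4 * B0) / 2) (u := min (1024 * (4 ^ j * (4 * B0))) (hi / 4)) (l' := 2 * B0)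
        (u' := hi / 4) (fun t ht x => by have := N.pos t ht x; positivity) fun t ht x l u =>
          Or.inr ⟨by linarith, u.trans (min_le_right _ _), by
            rw [← mul_assoc]
            refine le_mul_of_one_le_left (sq_nonneg _) (one_le_tail (div_pos (N.pos t ht x) B00) ?_)
            rw [div_le_iff₀ B00]; linarith [u.trans (min_le_left _ _)]⟩
      rw [ta_cmul, ← hT] at b1
      have b2 : √(512 * (4 ^ j * (4 * B0))) ≤ 23 * (2 ^ j * √(4 * B0)) := by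
        rw [Real.sqrt_le_left (by positivity), mul_pow, mul_pow, Real.sq_sqrt B4.le, ← pow_mul,
          mul_comm j 2, pow_mul]
        have : 0 ≤ (4 : ℝ) ^ j * (4 * B0) := by positivity
        norm_num; linarith
      have b3 : (8 / 7) ^ j * (4 * B0) ^ 2 / (4 ^ j * (4 * B0)) ^ 3 *
          (cE * (512 * (4 ^ j * (4 * B0))) / 40000) = 512 / 40000 * cE * (1 / 14 : ℝ) ^ j := by
        have : (1 / 14 : ℝ) ^ j = (8 / 7) ^ j / (4 ^ j) ^ 2 := by
          rw [← pow_mul, mul_comm j 2, pow_mul, ← div_pow]; norm_num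
        rw [this]; field_simp
      rw [← mul_assoc, b3]
      have c1 : (1 / 14 : ℝ) ^ j * (49 / 4) ^ j = (7 / 8) ^ j := by rw [← mul_pow]; norm_num
      have c2 : (1 / 14 : ℝ) ^ j * 4 ^ j * 2 ^ j ≤ (7 / 8) ^ j := by
        rw [← mul_pow, ← mul_pow]; exact pow_le_pow_left₀ (by norm_num) (by norm_num) j
      calc _ ≤ 512 / 40000 * cE * (1 / 14 : ℝ) ^ j * (cE * (512 * (4 ^ j * (4 * B0))) / 40000 *
            (C4 * a n * (23 * (2 ^ j * √(4 * B0)))) + 4096 ^ 2 * (49 / 4) ^ j * T) := by gcongr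
        _ = 512 / 40000 * (512 / 40000 * 23) * (cE ^ 2 * C4 * (a n * (4 * B0 * √(4 * B0)))) *
            ((1 / 14 : ℝ) ^ j * 4 ^ j * 2 ^ j) +
            512 / 40000 * (4096 ^ 2 * cE * T) * ((1 / 14 : ℝ) ^ j * (49 / 4) ^ j) := by ring
        _ ≤ 1 * (cE ^ 2 * C4 * (a n * (4 * B0 * √(4 * B0)))) * (7 / 8) ^ j +
            1 * (4096 ^ 2 * cE * T) * (7 / 8) ^ j := by rw [c1]; gcongr <;> norm_num
        _ = _ := by rw [hY]; ring
    rw [← Finset.mul_sum] at a1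
    have a2 := a1.trans (mul_le_mul_of_nonneg_left (geo_le (by norm_num) le_rfl J) Y0)
    nlinarith [mul_le_mul_of_nonneg_left a2 CM0]

end Rd

end Crest.Agent.N207.NP

end
end

-- ▼ part N207/NP/PH
section

/-!
# Row 207, block P (helper85): `PH`
-/

set_option autoImplicit false
set_option linter.dupNamespace false
set_option linter.unusedSectionVars false
open Set MeasureTheory Filter Topology
open scoped ContDiff

noncomputable section

namespace Crest.Agent.N207.NP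

variable {M : Type*} [TopologicalSpace M] [CompactSpace M] [MeasurableSpace M]
  [OpensMeasurableSpace M] {H : HC M}

theorem EbH.mono {b : ℝ → M → ℝ} {m : ℕ} {s B h e e' : ℝ} (E : EbH H b m s B h e) (he : e ≤ e') :
    EbH H b m s B h e' := by
  obtain ⟨J, h1, h2, h3⟩ := E
  exact ⟨J, h1, h2, fun n => (h3 n).trans he⟩

theorem memH_shift {a tt : ℕ → ℝ} (h : Monotone tt) (n1 n : ℕ) :
    memH (fun n => a (n1 + n)) (fun n => tt (n1 + n)) n ≤ memH a tt (n1 + n) := by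
  rcases n with _ | n
  · exact le_trans (by simp [memH]) (memH_ge h _)
  unfold memH
  rw [Nat.add_sub_cancel, show n1 + (n + 1) - 1 = n1 + n by omega, Finset.sum_range_add]
  exact add_le_add le_rfl (le_add_of_nonneg_left (Finset.sum_nonneg fun j _ =>
    div_nonneg (Real.sqrt_nonneg _) (Real.rpow_nonneg (sub_nonneg.2 (h (by omega))) _)))

/-- the conclusion of `PH` -/
def Out (H : HC M) (a tt : ℕ → ℝ) (b : ℝ → M → ℝ) (θ A : ℝ) (m : ℕ) : Prop :=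
  ∃ (L C h : ℝ) (n0 : ℕ) (B : ℕ → ℝ) (e : ℕ → ℝ → ℝ), 0 < C ∧ 0 < h ∧
    (∀ n, A * a n ^ 2 ≤ B n ∧ B n ≤ L * a n ^ 2) ∧ ∀ n, n0 ≤ n →
      ContinuousOn (e n) (Icc (tt n) (tt (n + 1))) ∧
      (∀ s ∈ Icc (tt n) (tt (n + 1)),
        EbH H b m s (B n) h (e n s) ∧ EbH H b m s (B n) h (C * a n)) ∧
      IntegrableOn (An H b (H.Q 0) (a n ^ 2) (8 * B n)) (Icc (tt n) (tt (n + 1))) ∧
      ∫ s in tt n..tt (n + 1), e n s ^ 2 ≤
        θ * (∫ s in tt n..tt (n + 1), An H b (H.Q 0) (a n ^ 2) (8 * B n) s) +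
          C * (a n ^ 4 * (1 + ((n + 1) * memH a tt n) ^ 2 * (tt (n + 1) - tt n)))

theorem Out.unshift {a tt : ℕ → ℝ} {b : ℝ → M → ℝ} {θ A : ℝ} {m n1 : ℕ} (h : Monotone tt)
    (Z : Out H (fun n => a (n1 + n)) (fun n => tt (n1 + n)) b θ A m) : Out H a tt b θ A m := by
  obtain ⟨L, C, h', n0, B, e, h1, h2, h3, h4⟩ := Z
  refine ⟨max L A, C, h', n1 + n0, fun n => if n1 ≤ n then B (n - n1) else A * a n ^ 2,
    fun n => e (n - n1), h1, h2, fun n => ?_, fun n hn => ?_⟩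
  · dsimp only
    split_ifs with hn
    · obtain ⟨k, rfl⟩ := Nat.exists_eq_add_of_le hn
      rw [Nat.add_sub_cancel_left]
      exact ⟨(h3 k).1, (h3 k).2.trans (mul_le_mul_of_nonneg_right (le_max_left _ _) (sq_nonneg _))⟩
    · exact ⟨le_rfl, mul_le_mul_of_nonneg_right (le_max_right _ _) (sq_nonneg _)⟩
  · obtain ⟨k, rfl⟩ := Nat.exists_eq_add_of_le (show n1 ≤ n by omega)
    simp only [Nat.add_sub_cancel_left, Nat.le_add_right, if_true]
    obtain ⟨g1, g2, g3, g4⟩ := h4 k (by omega)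
    refine ⟨g1, g2, g3, g4.trans (add_le_add le_rfl (mul_le_mul_of_nonneg_left
      (mul_le_mul_of_nonneg_left (add_le_add le_rfl (mul_le_mul_of_nonneg_right ?_
        (sub_nonneg.2 (h (by omega))))) (by positivity)) h1.le))⟩
    have m1 := memH_ge (a := fun n => a (n1 + n)) (tt := fun n => tt (n1 + n))
      (fun i j hij => h (by omega)) k
    refine pow_le_pow_left₀ (by positivity) (mul_le_mul (by push_cast; linarith [n1.cast_nonneg (α := ℝ)])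
      (memH_shift h n1 k) (by linarith) (by positivity)) 2

namespace Rd

variable {a tt : ℕ → ℝ} {hi del K c Cv : ℝ} {b : ℝ → M → ℝ} {b' : ℕ → ℝ → M → ℝ}
  (S : Rd H a tt hi del K c Cv b b')
include S

theorem mono {del' : ℝ} (h : del ≤ del') : Rd H a tt hi del' K c Cv b b' where
  nk n := (S.nk n).mono le_rfl le_rfl h
  a_pos := S.a_pos
  a_eq := S.a_eq
  hi_pos := S.hi_pos
  c_pos := S.c_pos
  d_ge := S.d_ge
  dec n t ht x l u := by
    have hb := (S.nk n).pos t ht x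
    have hh := S.hi_pos
    exact (S.dec n t ht x l u).trans (by gcongr)
  vol := S.vol

theorem shift (hK : 4 ≤ K) (n1 : ℕ) :
    Rd H (fun n => a (n1 + n)) (fun n => tt (n1 + n)) hi del K c Cv b fun n => b' (n1 + n) where
  nk n := S.nk (n1 + n)
  a_pos := S.ap hK _
  a_eq n := by rw [S.a_eq (n1 + n), S.a_eq (n1 + 0), add_zero, pow_add, div_div]
  hi_pos := S.hi_pos
  c_pos := S.c_pos
  d_ge n := S.d_ge (n1 + n)
  dec n := S.dec (n1 + n)
  vol n := S.vol (n1 + n)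

theorem a_lim (hK : 4 ≤ K) : Tendsto a atTop (𝓝 0) := by
  rw [funext S.a_eq]
  exact (tendsto_pow_atTop_atTop_of_one_lt (by linarith)).const_div_atTop _

theorem small (hK : 4 ≤ K) (h : (16 * K * a 0 / c) ^ (1 / 16 : ℝ) ≤ 1 - (1 / K) ^ (1 / 16 : ℝ)) :
    Small (fun n => 2 * a n) tt (1 / 16) := fun n => by
  have c0 := S.c_pos
  have a0 := S.a_pos
  have K0 : 0 < K := by linarith
  set ρ := (1 / K) ^ (1 / 16 : ℝ) with hρ
  have ρ0 : 0 ≤ ρ := by positivity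
  have ρ1 : ρ < 1 := Real.rpow_lt_one (by positivity) ((div_lt_one K0).2 (by linarith)) (by norm_num)
  refine (Finset.sum_le_sum (g := fun m => (16 * K * a 0 / c) ^ (1 / 16 : ℝ) * ρ ^ m)
    fun m hm => ?_).trans ?_
  · have hm := Finset.mem_range.1 hm
    have d1 := S.smono.monotone (show m + 1 + 1 ≤ n by omega)
    have d2 := S.d_ge (m + 1)
    have am := S.ap hK m
    have am1 := S.ap hK (m + 1)
    have d3 : 0 < c * a (m + 1) := by positivity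
    rw [hρ, ← Real.rpow_natCast (_ ^ _), ← Real.rpow_mul (by positivity), mul_comm (1 / 16 : ℝ) m,
      Real.rpow_mul (by positivity), Real.rpow_natCast, ← Real.mul_rpow (by positivity) (by positivity)]
    refine Real.rpow_le_rpow (div_nonneg (sq_nonneg _) (by linarith)) ?_ (by norm_num)
    refine (div_le_div_of_nonneg_left (sq_nonneg _) (show 0 < 1 / 4 * (c * a (m + 1)) by positivity)
      (by linarith)).trans_eq ?_
    dsimp only
    rw [S.a_eq m, S.a_eq (m + 1), one_div K, inv_pow]; field_simp; ring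
  · rw [← Finset.mul_sum]
    have g := (summable_geometric_of_lt_one ρ0 ρ1).sum_le_tsum (Finset.range (n - 1))
      fun j _ => pow_nonneg ρ0 j
    rw [tsum_geometric_of_lt_one ρ0 ρ1] at g
    refine (mul_le_mul h g (Finset.sum_nonneg fun j _ => pow_nonneg ρ0 j) (by linarith)).trans_eq ?_
    exact mul_inv_cancel₀ (by linarith)

theorem exists_J (hK : 4 ≤ K) (h : ℝ) : ∃ J0 : ℕ, ∀ n, h < 4 ^ (J0 * (n + 1)) * a n ^ 2 := by
  have a0 := S.a_pos
  obtain ⟨J, hJ⟩ := pow_unbounded_of_one_lt (max (K ^ 2) (h / a 0 ^ 2)) (show (1 : ℝ) < 4 by norm_num)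
  refine ⟨J, fun n => ?_⟩
  have h1 := (div_lt_iff₀ (by positivity)).1 ((le_max_right _ _).trans_lt hJ)
  have h2 := pow_le_pow_left₀ (sq_nonneg K) ((le_max_left _ _).trans hJ.le) n
  have K0 : 0 < K := by linarith
  rw [S.a_eq n, pow_mul, pow_succ, div_pow, ← pow_mul K, mul_comm n 2, pow_mul K, ← mul_div_assoc,
    lt_div_iff₀ (by positivity)]
  calc _ < 4 ^ J * a 0 ^ 2 * (K ^ 2) ^ n := mul_lt_mul_of_pos_right h1 (by positivity)
    _ ≤ 4 ^ J * a 0 ^ 2 * (4 ^ J) ^ n := by gcongr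
    _ = _ := by ring

set_option maxHeartbeats 1600000 in
theorem ph0 (O : H.Ok) (hK : 4 ≤ K) {t0 ε0 cE r0 cc C0 CM θ θ' ε : ℝ} {Ck : ℕ → ℝ} {m N : ℕ}
    (R : ER H t0 ε0 cE r0 Ck) (hE : 0 < cE) (hr : 0 < r0) (hcc : 1 ≤ cc) (hP : PhSub H cc)
    (hC0 : 0 < C0) (hEst : Est H C0) (hCM : ∀ k ≤ m, Ck k * 200 ^ (6 + 2 * k) ≤ CM)
    (hθ' : 0 ≤ θ') (hθ : 256 * CM * (4096 ^ 2 * cE * (C0 * (2 * θ'))) ≤ θ) (e0 : 0 < ε)
    (e1 : ε ≤ 1 / 4) (hPg : Pg θ' (4 ^ ε) (3 * C0 / ε) N) (ht0 : t0 ≤ tt 0) (hd : 0 ≤ del)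
    (hd1 : del ≤ 1 / 50) (hd2 : (2 * cc + 8) * del ≤ 1 / 50)
    (hd3 : 11 * del + 3 * ((2 * cc + 8) * del) ≤ ε)
    (hd4 : cc * del * (4 + (K ^ 2) ^ (1 / 16 : ℝ)) ≤ 3 * (1 / 16)) (hd5 : del * cE ≤ 10000)
    (hd6 : 64 * del ^ 2 * Cv ≤ ε0) (hh : hi ≤ r0 ^ 2) (hsm : K * cE * a 0 ≤ 5000 * c)
    (hs : Small (fun n => 2 * a n) tt (1 / 16)) (A0 : ℝ) : Out H a tt b θ A0 m := by
  have A := O.alg
  have hi0 := S.hi_pos
  have Cv0 := S.Cv_nn
  have CM0 : 0 ≤ CM := le_trans (by have := (R 0).1; positivity) (hCM 0 m.zero_le)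
  obtain ⟨C, hC, hX⟩ := S.sub O hK hd hd1 (Real.sqrt_nonneg CM) (fun n t ht x l u => by
    simpa using S.crude O R hr ht0 hd hd1 hd6 hh ht l u (hCM 0 m.zero_le)) hcc hP hd4 hs
  choose X X' hX using hX
  obtain ⟨A1, A4, A2⟩ : ∃ A1, A0 ≤ A1 ∧ 8 * K ^ 2 ≤ A1 := ⟨_, le_max_left _ _, le_max_right _ _⟩
  have A3 : 128 ≤ A1 := by nlinarith
  obtain ⟨L, hL⟩ : ∃ L, L = 4 * (4 ^ (N + 1) * A1) := ⟨_, rfl⟩
  have L0 : 0 < L := by rw [hL]; positivity
  have t01 : 0 < tt 1 - tt 0 := sub_pos.2 (S.smono one_pos)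
  obtain ⟨h, hh0, hh1, hh2⟩ : ∃ h, 0 < h ∧ h ≤ hi / 8 ∧ h ≤ 40000 * (tt 1 - tt 0) / cE :=
    ⟨_, lt_min (by linarith) (by positivity), min_le_left _ _, min_le_right _ _⟩
  rw [le_div_iff₀ hE] at hh2
  obtain ⟨J0, hJ0⟩ := S.exists_J hK h
  obtain ⟨C4, hC4⟩ : ∃ C4, C4 = 8 * (C * (1 + (cE / 20000) ^ (3 / 4 : ℝ) + 2 * √K)) ^ 2 * Cv :=
    ⟨_, rfl⟩
  have C40 : 0 ≤ C4 := by rw [hC4]; positivity
  obtain ⟨C9, hC9⟩ : ∃ C9, C9 = 3 * C0 / ε * (4 ^ ε) ^ N * (3 * 4 ^ N) ^ 2 + 8 ^ N := ⟨_, rfl⟩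
  have C90 : 0 ≤ C9 := by rw [hC9]; positivity
  obtain ⟨c1, hc1⟩ : ∃ c1, c1 = 2 * (L * (1 + J0 * √(CM * C4 * cE))) ^ 2 := ⟨_, rfl⟩
  obtain ⟨c2, hc2⟩ : ∃ c2, c2 = 256 * CM * (cE ^ 2 * C4 * (L * √L) +
    4096 ^ 2 * cE * (C0 * (C9 * (Cv * C ^ 2 * (L * √L))))) := ⟨_, rfl⟩
  obtain ⟨c3, hc3⟩ : ∃ c3, c3 = L * a 0 + 2 * √CM * √L := ⟨_, rfl⟩
  have c10 : 0 ≤ c1 := by rw [hc1]; positivity
  have c20 : 0 ≤ c2 := by rw [hc2]; positivity
  have c30 : 0 < c3 := by have := S.a_pos; rw [hc3]; positivity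
  have l1 := S.a_lim hK
  have v1 := ((l1.sqrt.const_mul C).mul_const ((hi / 8) ^ (-(3 / 4) : ℝ))).eventually_le_const
    (show _ < (1 : ℝ) by simp)
  have v2 := ((l1.pow 2).const_mul (3 * 4 ^ N * A1)).eventually_le_const
    (show _ < hi / 4 by simp [hi0])
  obtain ⟨n0, hn0⟩ := eventually_atTop.1 (v1.and (v2.and (eventually_ge_atTop 1)))
  have key : ∀ n, ∃ (B : ℝ) (e : ℝ → ℝ), (A0 * a n ^ 2 ≤ B ∧ B ≤ L * a n ^ 2) ∧ (n0 ≤ n →
      ContinuousOn e (Icc (tt n) (tt (n + 1))) ∧ (∀ s ∈ Icc (tt n) (tt (n + 1)),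
        EbH H b m s B h (e s) ∧ EbH H b m s B h ((c1 + c2 + c3) * a n)) ∧
      IntegrableOn (An H b (H.Q 0) (a n ^ 2) (8 * B)) (Icc (tt n) (tt (n + 1))) ∧
      ∫ s in tt n..tt (n + 1), e s ^ 2 ≤
        θ * (∫ s in tt n..tt (n + 1), An H b (H.Q 0) (a n ^ 2) (8 * B) s) + (c1 + c2 + c3) *
          (a n ^ 4 * (1 + ((n + 1) * memH a tt n) ^ 2 * (tt (n + 1) - tt n)))) := fun n => by
    have an := S.ap hK n
    have p4 : ∀ i : ℕ, A1 * a n ^ 2 ≤ 4 ^ i * (A1 * a n ^ 2) := fun i =>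
      le_mul_of_one_le_left (by positivity) (one_le_pow₀ (by norm_num))
    have q0 : A0 * a n ^ 2 ≤ A1 * a n ^ 2 := mul_le_mul_of_nonneg_right A4 (sq_nonneg _)
    have q1 : 0 < A1 * a n ^ 2 := by positivity
    have q2 : 128 * a n ^ 2 ≤ A1 * a n ^ 2 := mul_le_mul_of_nonneg_right A3 (sq_nonneg _)
    by_cases hn : n0 ≤ n
    swap
    · exact ⟨A1 * a n ^ 2, fun _ => 0, ⟨q0, by rw [hL]; linarith [p4 (N + 1)]⟩, fun h => absurd h hn⟩
    obtain ⟨w1, w2, w3⟩ := hn0 n hn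
    have Nn := S.nk n
    have t0' : tt n ∈ Icc (tt n) (tt (n + 1)) := ⟨le_rfl, Nn.st.2.1.le⟩
    have Z : Xd H (tt n) (tt (n + 1)) (4 * a n ^ 2) (hi / 4) del ((2 * cc + 8) * del) (C * √(a n)) Cv
        b (b' n) (X n) (X' n) :=
      { nk := Nn.mono (by linarith [sq_nonneg (a n)]) (by linarith) le_rfl
        xc := (hX n).xc
        lo_pos := by positivity
        hi_pos := by linarith
        del_nn := hd
        del_le := hd1
        ν_le := hd2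
        Cv_nn := Cv0
        van := fun t ht x l u => (hX n).van t ht x (by linarith [p4 N]) u (le_trans
          (mul_le_mul_of_nonneg_left (Real.rpow_le_rpow_of_nonpos (by linarith) (by linarith)
            (by norm_num)) (by positivity)) w1)
        bd := fun x l u => (hX n).bd _ t0' x l u
        vol := fun β hβ => by
          have := O.int.fin _ (Nn.st.mem t0')
          refine le_trans (measureReal_mono ?_) (S.vol n _ t0' β (by linarith))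
          exact fun x hx => ⟨le_trans (by linarith [sq_nonneg (a n)]) hx.1, hx.2⟩ }
    obtain ⟨i, hi1, hi2⟩ := layer A O.int hEst hC0 hPg hθ' Z e0 e1 hd3 (Bs := A1 * a n ^ 2)
      (by linarith) (by linarith)
    obtain ⟨B0, hB0⟩ : ∃ B0, B0 = 4 ^ (i + 1) * (A1 * a n ^ 2) := ⟨_, rfl⟩
    rw [← hB0] at hi2
    have r1 : A1 * a n ^ 2 ≤ B0 := hB0 ▸ p4 _
    have r2 : 4 * B0 ≤ L * a n ^ 2 := by
      have : (4 : ℝ) ^ (i + 1) ≤ 4 ^ (N + 1) := pow_le_pow_right₀ (by norm_num) (by omega)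
      rw [hL, hB0]; linarith [mul_le_mul_of_nonneg_right this q1.le]
    have r3 : 8 * K ^ 2 * a n ^ 2 ≤ A1 * a n ^ 2 := mul_le_mul_of_nonneg_right A2 (sq_nonneg _)
    obtain ⟨e, f1, f2, f3⟩ := S.strip hK hE hsm O hd hd1 hd5 hC hX R hr ht0 hd6 hh (m := m)
      (J := J0 * (n + 1)) w3 (C4 := C4) (B0 := B0) (h := h) hC4.ge hCM (by linarith) (by linarith)
      (by linarith) ((hJ0 n).trans_le
        (mul_le_mul_of_nonneg_left (by linarith [sq_nonneg (a n)]) (by positivity)))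
    refine ⟨4 * B0, e, ⟨by linarith, r2⟩, fun _ => ⟨f1, fun s hs => ⟨f2 s hs,
      (S.ebH_crude hK (CM := CM) (by linarith) r2 fun p l u k hk => S.crude O R hr ht0 hd hd1 hd6 hh hs
        (by linarith) (by linarith) (hCM k hk)).mono
          (mul_le_mul_of_nonneg_right (by linarith) an.le)⟩,
      an_int A O.int Nn.st Nn.sm (A.sm_Q 0 Nn.st) _ _, f3.trans ?_⟩⟩
    have g1 := ta_mono A O.int Nn.st Nn.sm (A.sm_pow 2 (hX n).xc.tm.sm) (A.sm_Q 0 Nn.st)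
      (l := A1 * a n ^ 2) (u := 3 * 4 ^ i * (A1 * a n ^ 2)) (l' := a n ^ 2) (u' := 8 * (4 * B0))
      (fun t ht => O.evo.Q_nonneg 0 t (Nn.st.mem ht)) fun t ht x l u => by
        have : (4 : ℝ) ^ i ≤ 4 ^ N := pow_le_pow_right₀ (by norm_num) hi1.le
        have := mul_le_mul_of_nonneg_right this q1.le
        refine Or.inr ⟨by linarith [sq_nonneg (a n)], ?_, (hX n).le t ht x (by linarith) (by linarith)⟩
        rw [hB0, pow_succ]; linarith [p4 i]
    change _ ≤ θ * TA H (tt n) (tt (n + 1)) b (H.Q 0) (a n ^ 2) (8 * (4 * B0)) + _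
    generalize TA H (tt n) (tt (n + 1)) b (H.Q 0) (a n ^ 2) (8 * (4 * B0)) = Zq at g1 ⊢
    have g0 : 0 ≤ Zq := le_trans (ta_nn Nn.st.2.1.le fun _ _ _ => sq_nonneg _) g1
    have g2 : ∀ y, 0 ≤ y → y ≤ L * a n ^ 2 → y * √y ≤ L * √L * a n ^ 3 := fun y y0 y1 => by
      have : √y ≤ √L * a n := by
        rw [← Real.sqrt_sq an.le, ← Real.sqrt_mul L0.le]; exact Real.sqrt_le_sqrt y1
      exact (mul_le_mul y1 this (Real.sqrt_nonneg _) (by positivity)).trans_eq (by ring)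
    have B00 : 0 < B0 := by linarith
    have g3 := g2 (4 * B0) (by linarith) r2
    have g4 := g2 (A1 * a n ^ 2) q1.le (by linarith)
    have m1 := memH_ge (a := a) S.smono.monotone n
    have d0 : 0 ≤ tt (n + 1) - tt n := sub_nonneg.2 Nn.st.2.1.le
    obtain ⟨μ, hμ⟩ : ∃ μ, μ = (n + 1) * memH a tt n := ⟨_, rfl⟩
    rw [← hμ]
    have μ1 : 1 ≤ μ := hμ ▸ one_le_mul_of_one_le_of_one_le (by linarith [n.cast_nonneg (α := ℝ)]) m1
    have g5 : 4 * B0 * (1 + (J0 * (n + 1) : ℕ) * (√(CM * C4 * cE) * memH a tt n)) ≤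
        L * (1 + J0 * √(CM * C4 * cE)) * (a n ^ 2 * μ) := by
      calc _ = 4 * B0 * (1 + J0 * √(CM * C4 * cE) * μ) := by rw [hμ]; push_cast; ring
        _ ≤ L * a n ^ 2 * (μ + J0 * √(CM * C4 * cE) * μ) := by gcongr
        _ = _ := by ring
    have g6 : (C * √(a n)) ^ 2 = C ^ 2 * a n := by rw [mul_pow, Real.sq_sqrt an.le]
    rw [g6, ← hC9] at hi2
    calc _ ≤ 2 * (L * (1 + J0 * √(CM * C4 * cE)) * (a n ^ 2 * μ)) ^ 2 * (tt (n + 1) - tt n) +
          256 * CM * (cE ^ 2 * C4 * (a n * (L * √L * a n ^ 3)) + 4096 ^ 2 * cE *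
            (C0 * (2 * θ' * Zq + C9 * (Cv * (C ^ 2 * a n) * (L * √L * a n ^ 3))))) := by
          refine add_le_add (mul_le_mul_of_nonneg_right (mul_le_mul_of_nonneg_left
            (pow_le_pow_left₀ (by positivity) g5 2) (by norm_num)) d0)
            (mul_le_mul_of_nonneg_left (add_le_add (mul_le_mul_of_nonneg_left
              (mul_le_mul_of_nonneg_left g3 an.le) (by positivity))
            (mul_le_mul_of_nonneg_left (hi2.trans (mul_le_mul_of_nonneg_left (add_le_add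
              (mul_le_mul_of_nonneg_left g1 (by positivity)) (mul_le_mul_of_nonneg_left
                (mul_le_mul_of_nonneg_left g4 (by positivity)) C90)) hC0.le)) (by positivity)))
              (by positivity))
      _ = 256 * CM * (4096 ^ 2 * cE * (C0 * (2 * θ'))) * Zq +
          (c1 * (a n ^ 4 * (μ ^ 2 * (tt (n + 1) - tt n))) + c2 * a n ^ 4) := by
          rw [hc1, hc2]; ring
      _ ≤ _ := by
          refine add_le_add (mul_le_mul_of_nonneg_right hθ g0) ?_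
          have u1 : 0 ≤ a n ^ 4 * (μ ^ 2 * (tt (n + 1) - tt n)) := by positivity
          have u2 : 0 ≤ a n ^ 4 := by positivity
          linarith [mul_nonneg c10 u2, mul_nonneg c20 u1, mul_nonneg c30.le u1, mul_nonneg c30.le u2]
  choose B e hB he using key
  exact ⟨L, c1 + c2 + c3, h, n0, B, e, by linarith, hh0, hB, he⟩

end Rd

theorem ev_le {f : ℝ → ℝ} {c : ℝ} (hf : Continuous f) (h : f 0 < c) : ∀ᶠ δ in 𝓝[>] 0, f δ ≤ c :=
  mem_nhdsWithin_of_mem_nhds (hf.continuousAt.tendsto.eventually_le_const h)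

/-- the scalar form of block P -/
theorem ph_main (O : H.Ok) (E : H.EReg) : PH H := by
  intro t0 K Cv θ m ht hK hθ
  obtain ⟨ε0, cE, r0, Ck, h1, h2, h3, R⟩ := exists_er O.dist E ht
  obtain ⟨cc, hcc, hP⟩ := exists_phSub O.alg O.evo
  obtain ⟨C0, hC0, hEst⟩ := est O.alg O.int
  set CM := ∑ k ∈ Finset.range (m + 1), Ck k * 200 ^ (6 + 2 * k) with hCM
  have p : ∀ k ∈ Finset.range (m + 1), 0 ≤ Ck k * 200 ^ (6 + 2 * k) := fun k _ => by
    have := (R k).1; positivity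
  have hCM1 : ∀ k ≤ m, Ck k * 200 ^ (6 + 2 * k) ≤ CM := fun k hk =>
    Finset.single_le_sum p (Finset.mem_range.2 (by omega))
  have CM0 : 0 < CM := lt_of_lt_of_le (by have := (R 0).1; positivity) (hCM1 0 m.zero_le)
  set θ' := θ / (256 * CM * (4096 ^ 2 * cE * (C0 * 2))) with hθ'
  have θ0 : 0 < θ' := by positivity
  set ε := min (1 / 4) (θ' / 4) with hε
  have e0 : 0 < ε := lt_min (by norm_num) (by linarith)
  have e1 : ε ≤ 1 / 4 := min_le_left _ _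
  have e2 : (4 : ℝ) ^ ε < 1 + θ' := by
    have := rpow_one_add_le_one_add_mul_self (s := 3) (p := ε) (by norm_num) e0.le (by linarith)
    have e3 : ε ≤ θ' / 4 := min_le_right _ _
    norm_num at this; linarith
  obtain ⟨N, -, hN⟩ := pigeon (C := 3 * C0 / ε) θ0 (by positivity) e2
  obtain ⟨δ, ⟨d1, d2, d3, d4, d5, d6, d7⟩, d0⟩ := (((ev_le (f := fun δ => δ) (c := 1 / 50) (by fun_prop)
    (by norm_num)).and ((ev_le (f := fun δ => (2 * cc + 8) * δ) (c := 1 / 50) (by fun_prop)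
    (by norm_num)).and ((ev_le (f := fun δ => 11 * δ + 3 * ((2 * cc + 8) * δ)) (c := ε) (by fun_prop)
    (by simpa using e0)).and ((ev_le (f := fun δ => cc * δ * (4 + (K ^ 2) ^ (1 / 16 : ℝ)))
    (c := 3 * (1 / 16)) (by fun_prop) (by norm_num)).and ((ev_le (f := fun δ => δ * cE) (c := 10000)
    (by fun_prop) (by norm_num)).and ((ev_le (f := fun δ => 64 * δ ^ 2 * Cv) (c := ε0) (by fun_prop)
    (by simpa using h1)).and (ev_le (f := fun δ => δ) (c := r0 ^ 2) (by fun_prop)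
    (by positivity)))))))).and self_mem_nhdsWithin).exists
  refine ⟨δ, d0, fun a tt hi del c b b' S hd hh ht0 A => ?_⟩
  have l1 := S.a_lim hK
  have c0 := S.c_pos
  have K0 : 0 < K := by linarith
  have v1 := (l1.const_mul (K * cE)).eventually_le_const (show _ < 5000 * c by simp [c0])
  have v2 := (((l1.const_mul (16 * K)).div_const c).rpow_const (p := 1 / 16)
    (Or.inr (by norm_num))).eventually_le_const (show _ < 1 - (1 / K) ^ (1 / 16 : ℝ) by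
      have := Real.rpow_lt_one (x := 1 / K) (z := 1 / 16) (by positivity)
        ((div_lt_one K0).2 (by linarith)) (by norm_num)
      simp only [mul_zero, zero_div]
      rw [Real.zero_rpow (by norm_num)]; linarith)
  obtain ⟨n1, w1, w2⟩ := (v1.and v2).exists
  have S1 := (S.mono hd).shift hK n1
  exact Out.unshift S.smono.monotone (S1.ph0 O hK R h2 h3 hcc hP hC0 hEst hCM1 θ0.le
    (le_of_eq (by rw [hθ']; field_simp)) e0 e1 hN (ht0.trans (S.smono.monotone (by omega))) d0.le d1 d2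
    d3 d4 d5 d6 (hh.trans d7) w1 (S1.small hK w2) A)

end Crest.Agent.N207.NP

end
end

-- ▼ part N207/NP/Pest1
section

/-!
# Row 207, block P (helper60): `PEST` from `RAD`, `CURV`, `PH`, part 1 (geometry of the top neck)
-/

set_option autoImplicit false
set_option linter.dupNamespace false
set_option linter.unusedSectionVars false

open scoped ContDiff Manifold Topology
open Set MeasureTheory Filter
open Crest.GeometryTopology.CoordMetric Crest.GeometryTopology.ChartCurvature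
  Crest.GeometryTopology.MetricFamily

noncomputable section

namespace Crest.Agent.N207.NP.Pe

open Sk

theorem wt_nonneg (a b : ℝ) (y : E4) : 0 ≤ wt a b y := by unfold wt; positivity

theorem wt_le_two {a b : ℝ} {x : E4} (ha : 0 < a) (hx : x ∈ shell a b) : wt a b x ≤ 2 := by
  have h0 : 0 < ‖x‖ := ha.trans hx.1
  have h1 : √(a / ‖x‖) ≤ 1 := Real.sqrt_le_one.2 ((div_le_one h0).2 hx.1.le)
  have h2 : √(‖x‖ / b) ≤ 1 := Real.sqrt_le_one.2 ((div_le_one (h0.trans hx.2)).2 hx.2.le)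
  unfold wt; linarith

theorem sqrt_le_rpow {q κ y : ℝ} (hq : 0 ≤ q) (hκ : 0 ≤ κ) (hy : 0 < y) (hy1 : y ≤ 1)
    (h : q ^ 2 ≤ κ ^ 4 * y) : √q ≤ κ * y ^ (1 / 16 : ℝ) := by
  have h1 : y ≤ (y ^ (1 / 16 : ℝ)) ^ 4 := by
    rw [← Real.rpow_natCast, ← Real.rpow_mul hy.le]
    have := Real.rpow_le_rpow_of_exponent_ge hy hy1 (show (1 / 16 : ℝ) * (4 : ℕ) ≤ 1 by norm_num)
    rwa [Real.rpow_one] at this
  have h2 : 0 ≤ κ * y ^ (1 / 16 : ℝ) := mul_nonneg hκ (Real.rpow_nonneg hy.le _)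
  refine le_of_pow_le_pow_left₀ (n := 4) (by norm_num) h2 ?_
  have h3 : √q ^ 4 = q ^ 2 := by
    rw [show (4 : ℕ) = 2 * 2 from rfl, pow_mul, Real.sq_sqrt hq]
  rw [h3, mul_pow]
  exact h.trans (mul_le_mul_of_nonneg_left h1 (by positivity))

theorem sum_far {σ r : ℝ} (hσ : 0 ≤ σ) (hr : 0 ≤ r) (n : ℕ) :
    ∑ j ∈ Finset.range n, (if 2 ^ j * σ ≤ r then 2 ^ (j + 1) * σ else 0) ≤ 4 * r := by
  have h1 : ∀ n : ℕ, ∑ j ∈ Finset.range n, (if 2 ^ j * σ ≤ r then 2 ^ (j + 1) * σ else 0) ≤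
      2 ^ (n + 1) * σ := fun n => by
    induction n with
    | zero => simp only [Finset.range_zero, Finset.sum_empty]; positivity
    | succ n ih =>
      rw [Finset.sum_range_succ]
      have : (0 : ℝ) ≤ 2 ^ (n + 1) * σ := by positivity
      split_ifs <;> rw [pow_succ _ (n + 1)] <;> linarith
  induction n with
  | zero => simp only [Finset.range_zero, Finset.sum_empty]; positivity
  | succ n ih =>
    rw [Finset.sum_range_succ]
    split_ifs with h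
    · have := h1 n
      rw [pow_succ] at this ⊢
      linarith
    · linarith

variable {M : Type*} [TopologicalSpace M] [ChartedSpace E4 M] [IsManifold 𝓘(ℝ, E4) ∞ M]
  [T3Space M] [ConnectedSpace M] [MeasurableSpace M] [BorelSpace M] [CompactSpace M]

theorem not_mem_Om {N : Sk.Nk M} (hT : N.Top) {x : E4} (hx : x ∈ shell N.a N.b) :
    N.Ψ x ∉ N.Om ‖x‖ := by
  rintro (h | ⟨y, hy, e⟩)
  · exact hT.disj x hx h
  · obtain ⟨γ, -, hγ⟩ := (hT.fib y ⟨hy.1, hy.2.trans hx.2⟩ x hx).1 e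
    have := hy.2
    rw [← hγ, LinearIsometryEquiv.norm_map] at this
    exact lt_irrefl _ this

/-- transfer of a point between two comparable necks -/
theorem transfer {N N' : Sk.Nk M} (hT : N.Top) {r R : ℝ} (hc : Cmp N N' r R) {x : E4}
    (hx : x ∈ shell N.a N.b) (hr : r ≤ ‖x‖) (hR : ‖x‖ ≤ R / 4) :
    ∃ x' : E4, N'.Ψ x' = N.Ψ x ∧ ‖x‖ / 2 ≤ ‖x'‖ ∧ ‖x'‖ ≤ 21 / 10 * ‖x‖ := by
  have h0 : 0 < ‖x‖ := hT.a_pos.trans hx.1
  have h1 : N.Ψ x ∈ N'.Om (21 / 10 * ‖x‖) :=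
    (hc (21 / 10 * ‖x‖) ⟨by linarith, by linarith⟩).1 (Or.inr ⟨x, ⟨hx.1, by linarith⟩, rfl⟩)
  have h2 : N.Ψ x ∉ N'.Om (‖x‖ / 2) := fun h =>
    not_mem_Om hT hx ((hc ‖x‖ ⟨hr, by linarith⟩).2 h)
  rcases h1 with h | ⟨y, hy, e⟩
  · exact (h2 (Or.inl h)).elim
  · exact ⟨y, e, not_lt.1 fun h => h2 (Or.inr ⟨y, ⟨hy.1, h⟩, e⟩), hy.2.le⟩

theorem rc_nonneg (g : Met 4 M) (k : ℕ) (p : M) : 0 ≤ g.rc k p := AI.m_nsq_nonneg g _ p

theorem mass_nonneg (g : Met 4 M) (A : Set M) : 0 ≤ mass g A :=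
  integral_nonneg fun p => rc_nonneg g 0 p

theorem mass_mono (g : Met 4 M) {A A' : Set M} (h : A ⊆ A') : mass g A ≤ mass g A' := by
  have := V.isFinite g
  exact setIntegral_mono_set (((g.sm_rc 0).continuous.integrable_of_hasCompactSupport
    (HasCompactSupport.of_compactSpace _)).integrableOn)
    (Eventually.of_forall fun p => rc_nonneg g 0 p) h.eventuallyLE

variable {F : Flow M} {τ : TopD M} {m1 : ℕ} {η V : ℝ} {Cs : ℕ → ℝ}

section Ok

variable (h : τ.Ok F m1 η Cs V)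
include h

theorem K_pos : 0 < τ.K := by linarith [h.K_ge]

theorem lam_pos (n : ℕ) : 0 < τ.lam n := div_pos h.l0_pos (pow_pos (K_pos h) n)

theorem lam_anti {n n' : ℕ} (hn : n ≤ n') : τ.lam n' ≤ τ.lam n :=
  div_le_div_of_nonneg_left h.l0_pos.le (pow_pos (K_pos h) n)
    (pow_le_pow_right₀ (by linarith [h.K_ge]) hn)

theorem lam_add (n k : ℕ) : τ.lam (n + k) = τ.lam n / τ.K ^ k := by
  simp only [TopD.lam, pow_add, div_div]

theorem R_pos : 0 < τ.R :=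
  (mul_pos (pow_pos (K_pos h) 2) h.l0_pos).trans_le h.l0_le

theorem lam_le_one (n : ℕ) : τ.lam n ≤ 1 := by
  have h1 : τ.lam n ≤ τ.lam 0 := lam_anti h (Nat.zero_le n)
  have h2 : τ.lam 0 = τ.l0 := by simp [TopD.lam]
  have h3 := h.K_ge
  have h4 := h.l0_pos
  have h5 : 16 ≤ τ.K ^ 2 := by nlinarith
  nlinarith [h.l0_le, h.R_le]

theorem lam_lim : Tendsto τ.lam atTop (𝓝 0) :=
  tendsto_const_nhds.div_atTop (tendsto_pow_atTop_atTop_of_one_lt (by linarith [h.K_ge]))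

theorem d_pos (n : ℕ) : 0 < τ.d n := (mul_pos h.c_pos (lam_pos h n)).trans_le (h.d_ge n)

theorem t_lt (n : ℕ) : τ.t n < τ.t (n + 1) := sub_pos.1 (d_pos h n)

theorem t_mono : Monotone τ.t := monotone_nat_of_le_succ fun n => (t_lt h n).le

theorem lt_T {n : ℕ} {s : ℝ} (hs : s ≤ τ.t n) : s < F.T := hs.trans_lt (h.lt n)

theorem exists_I {n : ℕ} {s : ℝ} (hs : s ∈ Icc (τ.t n) (τ.t (n + 1))) :
    ∃ n', n ≤ n' ∧ s ∈ τ.I n' := by
  rcases hs.2.lt_or_eq with e | e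
  · exact ⟨n, le_rfl, hs.1, e⟩
  · exact ⟨n + 1, n.le_succ, e.ge, e ▸ t_lt h (n + 1)⟩

theorem good_self {n : ℕ} {s : ℝ} (hs : s ∈ τ.I n) : Good (F.m s) (τ.N s) m1 η Cs V :=
  h.good n s hs s le_rfl (le_add_of_nonneg_right (mul_pos h.c_pos (lam_pos h n)).le)
    (lt_T h hs.2.le)

theorem mem_ge (n : ℕ) : 1 ≤ τ.mem n :=
  le_add_of_nonneg_right (Finset.sum_nonneg fun _ _ =>
    div_nonneg (Real.sqrt_nonneg _) (Real.rpow_nonneg (d_pos h _).le _))

theorem be_ge (n : ℕ) : 1 ≤ τ.be n := by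
  have := mem_ge h n
  have h2 : (0 : ℝ) ≤ n := n.cast_nonneg
  unfold TopD.be; nlinarith

theorem P_nonneg (n : ℕ) : 0 ≤ τ.P n := by
  have := d_pos h n
  have := lam_pos h n
  unfold TopD.P; positivity

theorem Z_nonneg (ρ : ℕ → ℝ) (n : ℕ) : 0 ≤ τ.Z F ρ n :=
  intervalIntegral.integral_nonneg (t_lt h n).le fun _ _ => mass_nonneg _ _

theorem memH_le {A : ℝ} (hA : 1 ≤ A) (n0 n : ℕ) :
    memH (fun k => A * τ.lam (n0 + k)) (fun k => τ.t (n0 + k)) n ≤ √A * τ.mem (n0 + n) := by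
  have hs : 1 ≤ √A := Real.one_le_sqrt.2 hA
  have hn : ∀ j, 0 ≤ √(τ.lam j) / τ.d (j + 1) ^ (3 / 4 : ℝ) := fun j =>
    div_nonneg (Real.sqrt_nonneg _) (Real.rpow_nonneg (d_pos h _).le _)
  have h1 : ∑ j ∈ Finset.range (n - 1), √(τ.lam (n0 + j)) / τ.d (n0 + j + 1) ^ (3 / 4 : ℝ) ≤
      ∑ j ∈ Finset.range (n0 + n - 1), √(τ.lam j) / τ.d (j + 1) ^ (3 / 4 : ℝ) := by
    rcases n with _ | n
    · simpa using Finset.sum_nonneg fun j _ => hn j
    · rw [show n0 + (n + 1) - 1 = n0 + n from rfl, Finset.sum_range_add, Nat.add_sub_cancel]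
      exact le_add_of_nonneg_left (Finset.sum_nonneg fun j _ => hn j)
  have h2 : memH (fun k => A * τ.lam (n0 + k)) (fun k => τ.t (n0 + k)) n = 1 + √A *
      ∑ j ∈ Finset.range (n - 1), √(τ.lam (n0 + j)) / τ.d (n0 + j + 1) ^ (3 / 4 : ℝ) := by
    simp only [memH, Finset.mul_sum, Real.sqrt_mul (zero_le_one.trans hA), mul_div_assoc]
    rfl
  rw [h2, TopD.mem, mul_add, mul_one]
  exact add_le_add hs (mul_le_mul_of_nonneg_left h1 (Real.sqrt_nonneg _))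

end Ok

/-- the output of `RAD` -/
structure RD (F : Flow M) (τ : TopD M) (A R' δ : ℝ) (n0 : ℕ) (b : ℝ → M → ℝ)
    (b' : ℕ → ℝ → M → ℝ) : Prop where
  nk : ∀ n, Nk F.hc (τ.t (n0 + n)) (τ.t (n0 + n + 1)) ((A * τ.lam (n0 + n)) ^ 2) (R' ^ 2) δ b (b' n)
  o1 : ∀ k, n0 ≤ k → ∀ s ∈ τ.I k, ∀ p, (A * τ.lam k) ^ 2 ≤ b s p → b s p ≤ R' ^ 2 →
    ∃ x ∈ shell (τ.lam k) τ.R, (τ.N s).Ψ x = p ∧ ‖x‖ ^ 2 / 2 ≤ b s p ∧ b s p ≤ 2 * ‖x‖ ^ 2
  o2 : ∀ k, n0 ≤ k → ∀ s ∈ τ.I k, ∀ x : E4, A * τ.lam k ≤ ‖x‖ → ‖x‖ ≤ R' →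
    ‖x‖ ^ 2 / 2 ≤ b s ((τ.N s).Ψ x) ∧ b s ((τ.N s).Ψ x) ≤ 2 * ‖x‖ ^ 2

variable {A R' δ : ℝ} {n0 : ℕ} {b : ℝ → M → ℝ} {b' : ℕ → ℝ → M → ℝ}

theorem RD.mono (D : RD F τ A R' δ n0 b b') (h : τ.Ok F m1 η Cs V) (hA : 0 ≤ A) {A1 R1 : ℝ}
    (h1 : A ≤ A1) (h2 : 0 ≤ R1) (h3 : R1 ≤ R') : RD F τ A1 R1 δ n0 b b' := by
  have e1 : ∀ k, A * τ.lam k ≤ A1 * τ.lam k := fun k =>
    mul_le_mul_of_nonneg_right h1 (lam_pos h k).le
  have e2 : ∀ k, (A * τ.lam k) ^ 2 ≤ (A1 * τ.lam k) ^ 2 := fun k =>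
    pow_le_pow_left₀ (mul_nonneg hA (lam_pos h k).le) (e1 k) 2
  have e3 : R1 ^ 2 ≤ R' ^ 2 := pow_le_pow_left₀ h2 h3 2
  exact ⟨fun n => (D.nk n).mono (e2 _) e3 le_rfl,
    fun k hk s hs p a c => D.o1 k hk s hs p ((e2 k).trans a) (c.trans e3),
    fun k hk s hs x a c => D.o2 k hk s hs x ((e1 k).trans a) (c.trans h3)⟩

/-- the point of the neck, at every time of the closed interval -/
theorem RD.pt (D : RD F τ A R' δ n0 b b') (h : τ.Ok F m1 η Cs V) (hA : 0 ≤ A) {n : ℕ} {s : ℝ}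
    (hs : s ∈ Icc (τ.t (n0 + n)) (τ.t (n0 + n + 1))) :
    ∃ k, n0 + n ≤ k ∧ s ∈ τ.I k ∧ ∀ p, (A * τ.lam (n0 + n)) ^ 2 ≤ b s p → b s p ≤ R' ^ 2 →
      ∃ x ∈ shell (τ.lam k) τ.R, (τ.N s).Ψ x = p ∧ ‖x‖ ^ 2 / 2 ≤ b s p ∧ b s p ≤ 2 * ‖x‖ ^ 2 := by
  obtain ⟨k, hk, hsk⟩ := exists_I h hs
  refine ⟨k, hk, hsk, fun p a c => D.o1 k ((Nat.le_add_right _ _).trans hk) s hsk p
    (le_trans (pow_le_pow_left₀ (mul_nonneg hA (lam_pos h k).le)
      (mul_le_mul_of_nonneg_left (lam_anti h hk) hA) 2) a) c⟩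

/-- the scalar data -/
theorem RD.rd (D : RD F τ A R' δ n0 b b') (h : τ.Ok F m1 η Cs V) {C0 ε0 κ : ℝ} (hC : 0 < C0)
    (hε : 0 < ε0) (hη : η ≤ ε0 / 2) (hm : 2 ≤ m1)
    (hcv : ∀ (G : MetricField 4) (U : Set E4) (x : E4) (s ε : ℝ), IsRiemannianOn G U → x ∈ U →
      0 < s → ε ≤ ε0 → JG 2 G x s ε → √(nsq G (rmT G) x) ≤ C0 * ε / s ^ 2)
    (hκ : 0 < κ) (hδ : C0 * ε0 * κ ≤ δ) (hA : 1 ≤ A) (hAκ : 2 ≤ A * κ ^ 2) (hR : 0 < R')
    (hR1 : 2 * R' ≤ κ ^ 2 * τ.R) (hR2 : 2 * R' ≤ τ.R) :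
    Rd F.hc (fun k => A * τ.lam (n0 + k)) (fun k => τ.t (n0 + k)) (R' ^ 2) δ τ.K (τ.c / A)
      (16 * |V|) b b' where
  nk := D.nk
  a_pos := mul_pos (by linarith) (lam_pos h _)
  a_eq n := by simp only [add_zero, lam_add h n0 n, mul_div_assoc]
  hi_pos := by positivity
  c_pos := div_pos h.c_pos (by linarith)
  d_ge n := by
    have := h.d_ge (n0 + n)
    have e : τ.c / A * (A * τ.lam (n0 + n)) = τ.c * τ.lam (n0 + n) := by field_simp
    rw [e]; exact this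
  dec n s hs p a c := by
    obtain ⟨k, hk, hsk, hp⟩ := D.pt h (by linarith) hs
    obtain ⟨x, hx, rfl, h1, h2⟩ := hp p a c
    have hl := lam_pos h k
    have hl' := lam_pos h (n0 + n)
    have hll := lam_anti h hk
    have hT := h.top k s hsk
    have hx' : x ∈ shell (τ.N s).a (τ.N s).b := by rwa [h.a_eq k s hsk, h.b_eq k s hsk]
    have h0 : 0 < ‖x‖ := hl.trans hx.1
    have hj := (good_self h hsk).jet x hx'
    rw [h.a_eq k s hsk, h.b_eq k s hsk] at hj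
    have hw := wt_nonneg (τ.lam k) τ.R x
    have hw2 := wt_le_two hl hx
    have hj2 : JG 2 ((F.m s).pm (τ.N s).Ψ) x ‖x‖ (ε0 / 2 * wt (τ.lam k) τ.R x) :=
      fun i hi u v => (hj i (hi.trans hm) u v).trans (mul_le_mul_of_nonneg_right hη hw)
    have h3 := hcv _ _ x ‖x‖ _ (hT.par.riem (F.m s)) hx' h0 (by nlinarith) hj2
    have h4 : F.hc.N 0 s ((τ.N s).Ψ x) =
        nsq ((F.m s).pm (τ.N s).Ψ) (rmT ((F.m s).pm (τ.N s).Ψ)) x := hT.par.par_rm (F.m s) 0 hx'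
    rw [h4]
    refine h3.trans ?_
    set β := b s ((τ.N s).Ψ x) with hβ
    have hb : 0 < β := lt_of_lt_of_le (by positivity) h1
    have hRp := R_pos h
    have hA0 : 0 < A := by linarith
    have q1 : √(τ.lam k / ‖x‖) ≤ κ * ((A * τ.lam (n0 + n)) ^ 2 / β) ^ (1 / 16 : ℝ) := by
      refine sqrt_le_rpow (by positivity) hκ.le (by positivity) ((div_le_one hb).2 a) ?_
      rw [div_pow, ← mul_div_assoc, div_le_div_iff₀ (by positivity) hb]
      have e1 : τ.lam k ^ 2 ≤ τ.lam (n0 + n) ^ 2 := pow_le_pow_left₀ hl.le hll 2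
      have e2 : 4 ≤ (A * κ ^ 2) ^ 2 := by nlinarith
      have e3 : τ.lam k ^ 2 * β ≤ τ.lam (n0 + n) ^ 2 * (2 * ‖x‖ ^ 2) :=
        mul_le_mul e1 h2 hb.le (by positivity)
      have e4 : 4 * (τ.lam (n0 + n) ^ 2 * ‖x‖ ^ 2) ≤
          (A * κ ^ 2) ^ 2 * (τ.lam (n0 + n) ^ 2 * ‖x‖ ^ 2) :=
        mul_le_mul_of_nonneg_right e2 (by positivity)
      have e5 : 0 ≤ τ.lam (n0 + n) ^ 2 * ‖x‖ ^ 2 := by positivity
      nlinarith
    have q2 : √(‖x‖ / τ.R) ≤ κ * (β / R' ^ 2) ^ (1 / 16 : ℝ) := by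
      refine sqrt_le_rpow (by positivity) hκ.le (by positivity)
        ((div_le_one (by positivity)).2 c) ?_
      rw [div_pow, ← mul_div_assoc, div_le_div_iff₀ (by positivity) (by positivity)]
      have e2 : (2 * R') ^ 2 ≤ (κ ^ 2 * τ.R) ^ 2 := pow_le_pow_left₀ (by positivity) hR1 2
      have e3 : ‖x‖ ^ 2 * R' ^ 2 ≤ 2 * β * R' ^ 2 :=
        mul_le_mul_of_nonneg_right (by linarith) (by positivity)
      have e4 : β * (2 * R') ^ 2 ≤ β * (κ ^ 2 * τ.R) ^ 2 := mul_le_mul_of_nonneg_left e2 hb.le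
      have e5 : 0 ≤ β * R' ^ 2 := by positivity
      nlinarith
    set Y := ((A * τ.lam (n0 + n)) ^ 2 / β) ^ (1 / 16 : ℝ) + (β / R' ^ 2) ^ (1 / 16 : ℝ) with hY
    have hY0 : 0 ≤ Y := by positivity
    have q3 : wt (τ.lam k) τ.R x ≤ κ * Y := by rw [hY, mul_add]; exact add_le_add q1 q2
    rw [div_mul_eq_mul_div δ, div_le_div_iff₀ (by positivity) hb]
    have q4 : C0 * (ε0 / 2 * wt (τ.lam k) τ.R x) * β ≤
        C0 * (ε0 / 2 * (κ * Y)) * (2 * ‖x‖ ^ 2) := by gcongr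
    have q5 : C0 * ε0 * κ * (Y * ‖x‖ ^ 2) ≤ δ * (Y * ‖x‖ ^ 2) :=
      mul_le_mul_of_nonneg_right hδ (by positivity)
    nlinarith
  vol n s hs β hβ := by
    obtain ⟨k, hk, hsk, hp⟩ := D.pt h (by linarith) hs
    have hl := lam_pos h k
    have hl' := lam_pos h (n0 + n)
    have hll := lam_anti h hk
    rcases lt_or_ge β ((A * τ.lam (n0 + n)) ^ 2) with hlt | hge
    · have : {x | (A * τ.lam (n0 + n)) ^ 2 ≤ b s x ∧ b s x ≤ β} = ∅ :=
        eq_empty_of_forall_notMem fun x hx => by linarith [hx.1, hx.2]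
      rw [this, measureReal_empty]; positivity
    have hb : 0 < β := lt_of_lt_of_le (by positivity) hge
    have hsq := Real.sq_sqrt hb.le
    have hs0 := Real.sqrt_pos.2 hb
    have r1 : τ.lam k ≤ 2 * √β := by
      have : A * τ.lam (n0 + n) ≤ √β := Real.le_sqrt_of_sq_le hge
      nlinarith
    have r2 : 2 * √β ≤ τ.R := by
      have : √β ≤ R' := Real.sqrt_le_iff.2 ⟨hR.le, hβ⟩
      linarith
    have hv := h.vol k s hsk s le_rfl (le_add_of_nonneg_right (mul_pos h.c_pos hl).le)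
      (lt_T h hsk.2.le) (2 * √β) ⟨r1, r2⟩
    have := N207.V.isFinite (F.m s)
    have hsub : {x | (A * τ.lam (n0 + n)) ^ 2 ≤ b s x ∧ b s x ≤ β} ⊆ (τ.N s).Om (2 * √β) := by
      intro p hp'
      obtain ⟨x, hx, rfl, h1, -⟩ := hp p hp'.1 (hp'.2.trans hβ)
      refine Or.inr ⟨x, ⟨by rw [h.a_eq k s hsk]; exact hx.1, ?_⟩, rfl⟩
      refine lt_of_pow_lt_pow_left₀ 2 (by positivity) ?_
      have := hp'.2
      nlinarith
    refine (measureReal_mono (μ := (F.m s).vol) hsub).trans (hv.trans ?_)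
    have e : (2 * √β) ^ 4 = 16 * β ^ 2 := by
      rw [mul_pow, show (4 : ℕ) = 2 * 2 from rfl, pow_mul √β, hsq]; norm_num
    rw [e]
    nlinarith [le_abs_self V, sq_nonneg β]

/-- the annular mass is at most the mass in the chart -/
theorem RD.an_le (D : RD F τ A R' δ n0 b b') (h : τ.Ok F m1 η Cs V) {k : ℕ} (hk : n0 ≤ k) {s : ℝ}
    (hs : s ∈ τ.I k) {B r : ℝ} (hB : 8 * B ≤ R' ^ 2) (hr : 0 < r) (hBr : 32 * B ≤ r ^ 2) :
    An F.hc b (F.hc.Q 0) ((A * τ.lam k) ^ 2) (8 * B) s ≤ τ.ms F r s := by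
  refine mass_mono (F.m s) fun p hp => ?_
  obtain ⟨x, hx, rfl, h1, -⟩ := D.o1 k hk s hs p hp.1 (hp.2.trans hB)
  refine Or.inr ⟨x, ⟨by rw [h.a_eq k s hs]; exact hx.1, ?_⟩, rfl⟩
  refine lt_of_pow_lt_pow_left₀ 2 hr.le ?_
  have := hp.2
  have h0 : 0 < ‖x‖ := (lam_pos h k).trans hx.1
  nlinarith

end Crest.Agent.N207.NP.Pe

end
end

-- ▼ part N207/NP/Pest2
section

/-!
# Row 207, block P (helper60): `PEST` from `RAD`, `CURV`, `PH`, part 2
-/

set_option autoImplicit false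
set_option linter.dupNamespace false
set_option linter.unusedSectionVars false

open scoped ContDiff Manifold Topology
open Set MeasureTheory Filter
open Crest.GeometryTopology.CoordMetric Crest.GeometryTopology.ChartCurvature
  Crest.GeometryTopology.MetricFamily

noncomputable section

namespace Crest.Agent.N207.NP

namespace Pe

open Sk

variable {M : Type*} [TopologicalSpace M] [ChartedSpace E4 M] [IsManifold 𝓘(ℝ, E4) ∞ M]
  [T3Space M] [ConnectedSpace M] [MeasurableSpace M] [BorelSpace M] [CompactSpace M]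
  {F : Flow M} {τ : TopD M} {m1 : ℕ} {η V : ℝ} {Cs : ℕ → ℝ}

theorem ebd_mono {g : Met 4 M} {N : Sk.Nk M} {m : ℕ} {ρ e e' : ℝ} (h : Ebd g N m ρ e)
    (he : e ≤ e') : Ebd g N m ρ e' := by
  obtain ⟨J, h1, h2, h3⟩ := h
  exact ⟨J, h1, h2, fun n => (h3 n).trans he⟩

/-- scale invariant bound of the jets of `Ric` in the neck -/
def Far (F : Flow M) (τ : TopD M) (m : ℕ) (Cf : ℝ) : Prop :=
  ∀ k, ∀ u ∈ τ.I k, ∀ s, u ≤ s → s ≤ u + τ.c * τ.lam k → s < F.T →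
    ∀ x ∈ shell (τ.lam k) τ.R, ∀ i ≤ m, ‖x‖ ^ (i + 2) * √((F.m s).rc i ((τ.N u).Ψ x)) ≤ Cf

theorem exists_far (h : τ.Ok F m1 η Cs V) {ε0 : ℝ} (hε : 0 < ε0) (hη : η ≤ ε0 / 2)
    (hcv : ∀ (k : ℕ) (Cs : ℕ → ℝ), ∃ C' : ℝ, ∀ (G : MetricField 4) (U : Set E4) (x : E4) (s : ℝ),
      IsRiemannianOn G U → x ∈ U → 0 < s → JG 0 G x s ε0 → JAll Cs G x s 2 →
        s ^ (k + 2) * √(nsq G (covN G (ricT G) k) x) ≤ C') (m : ℕ) :
    ∃ Cf, 0 ≤ Cf ∧ Far F τ m Cf := by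
  choose C' hC' using fun k => hcv k fun i => |Cs i|
  refine ⟨∑ i ∈ Finset.range (m + 1), |C' i|, Finset.sum_nonneg fun _ _ => abs_nonneg _,
    fun k u hu s h1 h2 h3 x hx i hi => ?_⟩
  have hT := h.top k u hu
  have hg := h.good k u hu s h1 h2 h3
  have hx' : x ∈ shell (τ.N u).a (τ.N u).b := by rwa [h.a_eq k u hu, h.b_eq k u hu]
  have hw := wt_nonneg (τ.N u).a (τ.N u).b x
  have hw2 := wt_le_two hT.a_pos hx'
  have j0 : JG 0 ((F.m s).pm (τ.N u).Ψ) x ‖x‖ ε0 := fun l hl a c =>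
    (hg.jet x hx' l (hl.trans (Nat.zero_le _)) a c).trans (by nlinarith)
  have j1 : JAll (fun i => |Cs i|) ((F.m s).pm (τ.N u).Ψ) x ‖x‖ 2 := fun l a c =>
    (hg.all x hx' l a c).trans (mul_le_mul (le_abs_self _) hw2 hw (abs_nonneg _))
  rw [hT.par.par_rc (F.m s) i hx']
  exact (hC' i _ _ x _ (hT.par.riem (F.m s)) hx' (hT.a_pos.trans hx'.1) j0 j1).trans
    ((le_abs_self _).trans (Finset.single_le_sum (f := fun i => |C' i|)
      (fun _ _ => abs_nonneg _) (Finset.mem_range.2 (Nat.lt_succ_of_le hi))))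

variable {A R' δ : ℝ} {n0 : ℕ} {b : ℝ → M → ℝ} {b' : ℕ → ℝ → M → ℝ}

theorem ar_near {x y β σ B r : ℝ} {j : ℕ} (hσ : 0 < σ) (hσ2 : σ ^ 2 = 8 * B) (h1 : 2 ^ j * σ ≤ x)
    (h2 : x ≤ 2 ^ (j + 1) * σ) (hn : x ≤ r) (y1 : x / 2 ≤ y) (y2 : y ≤ 21 / 10 * x)
    (b1 : y ^ 2 / 2 ≤ β) (b2 : β ≤ 2 * y ^ 2) :
    4 ^ j * B ≤ β ∧ β ≤ 512 * 4 ^ j * B ∧ β ≤ 9 * r ^ 2 ∧ x ≤ 3 * √β := by
  have x0 : 0 < x := lt_of_lt_of_le (by positivity) h1
  have c1 : (x / 2) ^ 2 ≤ y ^ 2 := pow_le_pow_left₀ (by positivity) y1 2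
  have c2 : y ^ 2 ≤ (21 / 10 * x) ^ 2 := pow_le_pow_left₀ (by linarith) y2 2
  have e4 : (2 ^ j * σ) ^ 2 = 8 * (4 ^ j * B) := by
    rw [mul_pow, hσ2, ← pow_mul, mul_comm j 2, pow_mul]; norm_num; ring
  have c3 : (2 ^ j * σ) ^ 2 ≤ x ^ 2 := pow_le_pow_left₀ (by positivity) h1 2
  have c4 : x ^ 2 ≤ (2 ^ (j + 1) * σ) ^ 2 := pow_le_pow_left₀ x0.le h2 2
  have e5 : (2 ^ (j + 1) * σ) ^ 2 = 4 * (2 ^ j * σ) ^ 2 := by ring
  have c5 : x ^ 2 ≤ r ^ 2 := pow_le_pow_left₀ x0.le hn 2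
  have c6 : 0 ≤ (2 ^ j * σ) ^ 2 := sq_nonneg _
  have c7 := sq_nonneg x
  rw [div_pow] at c1
  rw [mul_pow] at c2
  rw [mul_assoc]
  refine ⟨by linarith, by linarith, by linarith,
    le_of_pow_le_pow_left₀ two_ne_zero (by positivity) ?_⟩
  rw [mul_pow, Real.sq_sqrt (by linarith)]; linarith

theorem ar_far {x w r Cf : ℝ} {i : ℕ} (hr : 0 < r) (hn : r < x) (hw : 0 ≤ w)
    (f : x ^ (i + 2) * w ≤ Cf) : x ^ i * w ≤ Cf / r ^ 3 * x := by
  have x0 : 0 < x := hr.trans hn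
  rw [div_mul_eq_mul_div, le_div_iff₀ (by positivity)]
  calc x ^ i * w * r ^ 3 ≤ x ^ i * w * x ^ 3 := by gcongr
    _ = x ^ (i + 2) * w * x := by ring
    _ ≤ Cf * x := by gcongr

theorem ar_sum {B e S T D R p : ℝ} (hB : 0 ≤ B) (hD : 0 ≤ D) (hp : 1 ≤ p) (h1 : B * (1 + S) ≤ e)
    (h2 : T ≤ 4 * (R / 4)) :
    32768 * B * (1 + (p * S + D * T)) ≤ 32768 * (p * e + D * R * B) := by
  have s1 := mul_le_mul_of_nonneg_left h2 (mul_nonneg hB hD)
  have s2 := mul_le_mul_of_nonneg_left h1 (zero_le_one.trans hp)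
  have s3 := mul_le_mul_of_nonneg_right hp hB
  linarith

theorem RD.near (D : RD F τ A R' δ n0 b b') (h : τ.Ok F m1 η Cs V) (hK : τ.K ≤ A) {k : ℕ}
    (hk : n0 ≤ k) {u s : ℝ} (hu : u ∈ τ.I k) (hus : u ≤ s) (hs : s ≤ u + τ.c * τ.lam k)
    (hs' : s ≤ τ.t (k + 1)) {x : E4} (hx : x ∈ shell (τ.lam k) τ.R)
    (h1 : 2 * (A * τ.lam k) ≤ ‖x‖) (h2 : ‖x‖ ≤ τ.R / 4) (h3 : 3 * ‖x‖ ≤ R') :
    ∃ y : ℝ, ‖x‖ / 2 ≤ y ∧ y ≤ 21 / 10 * ‖x‖ ∧ y ^ 2 / 2 ≤ b s ((τ.N u).Ψ x) ∧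
      b s ((τ.N u).Ψ x) ≤ 2 * y ^ 2 := by
  obtain ⟨k', hk', hsk⟩ := exists_I h (n := k) ⟨hu.1.trans hus, hs'⟩
  have hl := lam_pos h k
  have hll := lam_anti h hk'
  have hK4 := h.K_ge
  have hx' : x ∈ shell (τ.N u).a (τ.N u).b := by rwa [h.a_eq k u hu, h.b_eq k u hu]
  have a0 : τ.lam k ≤ τ.K * τ.lam k := le_mul_of_one_le_left hl.le (by linarith)
  have a1 : τ.K * τ.lam k ≤ A * τ.lam k := mul_le_mul_of_nonneg_right hK hl.le
  have a2 : A * τ.lam k' ≤ A * τ.lam k := mul_le_mul_of_nonneg_left hll (by linarith)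
  have hc : Cmp (τ.N u) (τ.N s) (τ.K * τ.lam k) τ.R := h.cmp k k' u hu s hsk _ le_rfl
    (mul_le_mul_of_nonneg_left hll (by linarith)) (by
      rw [abs_sub_comm, abs_of_nonneg (sub_nonneg.2 hus)]
      linarith [mul_le_mul_of_nonneg_left a0 h.c_pos.le])
  obtain ⟨y, hy, y1, y2⟩ := transfer (h.top k u hu) hc hx' (by linarith) h2
  have b1 := D.o2 k' (hk.trans hk') s hsk y (by linarith) (by linarith [norm_nonneg x])
  rw [hy] at b1
  exact ⟨‖y‖, y1, y2, b1⟩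

theorem RD.ebd (D : RD F τ A R' δ n0 b b') (h : τ.Ok F m1 η Cs V) (hK : τ.K ≤ A) {m : ℕ}
    {Cf r1 hh : ℝ} (hCf : 0 ≤ Cf) (hF : Far F τ m Cf) (hr1 : 0 < r1) (hr : 3 * r1 ≤ R')
    (hrh : 9 * r1 ^ 2 ≤ hh) {k : ℕ} (hk : n0 ≤ k) {u s B e : ℝ} (hu : u ∈ τ.I k) (hus : u ≤ s)
    (hs : s ≤ u + τ.c * τ.lam k) (hs' : s ≤ τ.t (k + 1)) (hB : (A * τ.lam k) ^ 2 ≤ B)
    (hE : EbH F.hc b m s B hh e) :
    Ebd (F.m s) (τ.N u) m √(32768 * B) (32768 * (3 ^ m * e + Cf / r1 ^ 3 * τ.R * B)) := by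
  obtain ⟨J, hJ0, hJ, hJs⟩ := hE
  have hl := lam_pos h k
  have hK4 := h.K_ge
  have hAl : τ.lam k ≤ A * τ.lam k := le_mul_of_one_le_left hl.le (by linarith)
  have hB0 : 0 < B := lt_of_lt_of_le (pow_pos (hl.trans_le hAl) 2) hB
  have hρ : √(32768 * B) ^ 2 = 32768 * B := Real.sq_sqrt (by positivity)
  obtain ⟨σ, hσ⟩ : ∃ σ, σ = √(32768 * B) / 64 := ⟨_, rfl⟩
  have hσ0 : 0 < σ := by rw [hσ]; positivity
  have hσ2 : σ ^ 2 = 8 * B := by rw [hσ, div_pow, hρ]; ring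
  have hσA : 2 * (A * τ.lam k) ≤ σ :=
    le_of_pow_le_pow_left₀ two_ne_zero hσ0.le (by rw [mul_pow 2]; linarith)
  have hRp := R_pos h
  have hD : 0 ≤ Cf / r1 ^ 3 := by positivity
  refine ⟨fun j => 3 ^ m * J j + Cf / r1 ^ 3 * (if 2 ^ j * σ ≤ τ.R / 4 then 2 ^ (j + 1) * σ else 0),
    fun j => ?_, fun j x h1 h2 h3 i hi => ?_, fun n => ?_⟩
  · have := hJ0 j
    beta_reduce
    split_ifs <;> positivity
  · rw [h.b_eq k u hu] at h3
    rw [← hσ] at h1 h2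
    have x1 : σ ≤ ‖x‖ := (le_mul_of_one_le_left hσ0.le (one_le_pow₀ one_le_two)).trans h1
    have hx : x ∈ shell (τ.lam k) τ.R := ⟨by linarith, by linarith⟩
    beta_reduce
    rw [if_pos (h1.trans h3)]
    have hJj := hJ0 j
    rcases le_or_gt ‖x‖ r1 with hn | hn
    · obtain ⟨y, y1, y2, b1, b2⟩ := D.near h hK hk hu hus hs hs' hx (hσA.trans x1) h3 (by linarith)
      obtain ⟨c1, c2, c3, c4⟩ := ar_near hσ0 hσ2 h1 h2 hn y1 y2 b1 b2
      have c7 := hJ j _ c1 c2 (c3.trans hrh) i hi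
      refine le_trans ?_ (le_add_of_nonneg_right (by positivity))
      refine (mul_le_mul_of_nonneg_right (pow_le_pow_left₀ (norm_nonneg _) c4 i)
        (Real.sqrt_nonneg _)).trans ?_
      rw [mul_pow, mul_assoc]
      exact mul_le_mul (pow_le_pow_right₀ (by norm_num) hi) c7 (by positivity) (by positivity)
    · exact ((ar_far hr1 hn (Real.sqrt_nonneg _) (hF k u hu s hus hs (lt_T h hs') x hx i hi)).trans
        (mul_le_mul_of_nonneg_left h2 hD)).trans (le_add_of_nonneg_left (by positivity))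
  · rw [hρ, Finset.sum_add_distrib, ← Finset.mul_sum, ← Finset.mul_sum]
    exact ar_sum hB0.le hD (one_le_pow₀ (by norm_num)) (hJs n)
      (sum_far hσ0.le (show 0 ≤ τ.R / 4 by positivity) n)

theorem ar_sup {p C A l E L B X : ℝ} (hl : 0 < l) (hl1 : l ≤ 1) (hE : 0 ≤ E) (hL : 0 ≤ L)
    (hX : 0 ≤ X) (hB : B ≤ L * l ^ 2) :
    32768 * (p * (C * (A * l)) + E * B) ≤ (32768 * p * (C * A) + 32768 * (E * L) + X) * l := by
  have f1 : B ≤ L * l := hB.trans (mul_le_mul_of_nonneg_left (by nlinarith) hL)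
  have f2 := mul_le_mul_of_nonneg_left f1 hE
  have f3 := mul_nonneg hX hl.le
  linarith

theorem ar_P {a C A P E B L l d : ℝ} (hB0 : 0 ≤ B) (hB : B ≤ L * l ^ 2) (hd : 0 ≤ d)
    (hP : l ^ 4 * d ≤ P) : 2 * a ^ 2 * (C * (A ^ 5 * P)) + 2 * (32768 * E * B) ^ 2 * d ≤
      (2 * a ^ 2 * C * A ^ 5 + 2 * (32768 * E * L) ^ 2) * P := by
  have f2 : B ^ 2 * d ≤ L ^ 2 * P := by
    calc _ ≤ (L * l ^ 2) ^ 2 * d := mul_le_mul_of_nonneg_right (pow_le_pow_left₀ hB0 hB 2) hd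
      _ = L ^ 2 * (l ^ 4 * d) := by ring
      _ ≤ _ := mul_le_mul_of_nonneg_left hP (sq_nonneg _)
  have f3 := mul_le_mul_of_nonneg_left f2 (show 0 ≤ 2 * (32768 * E) ^ 2 by positivity)
  linarith

theorem ar_end {θ Z0 Z1 Z X1 X2 P0 P1 P : ℝ} (hθ : 0 ≤ θ) (z0 : 0 ≤ Z0) (z1 : 0 ≤ Z1)
    (x1 : 0 ≤ X1) (x2 : 0 ≤ X2) (p0 : 0 ≤ P0) (p1 : 0 ≤ P1) (p : 0 ≤ P) :
    θ * Z + X2 * P ≤ θ * (Z0 + Z1 + Z) + (X1 + X2) * (P0 + P1 + P) := by
  have := mul_nonneg hθ (add_nonneg z0 z1)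
  have := mul_nonneg x1 (add_nonneg (add_nonneg p0 p1) p)
  have := mul_nonneg x2 (add_nonneg p0 p1)
  linarith

/-- the integral estimate -/
theorem int_est {s0 s1 a D θ Z C P X : ℝ} {e : ℝ → ℝ} (hs : s0 ≤ s1)
    (he : ContinuousOn e (Icc s0 s1)) (h : ∫ s in s0..s1, e s ^ 2 ≤ θ / (2 * a ^ 2) * Z + C)
    (ha : 0 < a) (hP : 2 * a ^ 2 * C + 2 * D ^ 2 * (s1 - s0) ≤ X * P) :
    ∫ s in s0..s1, (a * e s + D) ^ 2 ≤ θ * Z + X * P := by
  have i1 : IntervalIntegrable (fun s => e s ^ 2) volume s0 s1 :=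
    (he.pow 2).intervalIntegrable_of_Icc hs
  have i2 : IntervalIntegrable (fun s => (a * e s + D) ^ 2) volume s0 s1 :=
    (((continuousOn_const.mul he).add continuousOn_const).pow 2).intervalIntegrable_of_Icc hs
  have h1 : ∫ s in s0..s1, (a * e s + D) ^ 2 ≤ ∫ s in s0..s1, (2 * a ^ 2 * e s ^ 2 + 2 * D ^ 2) :=
    intervalIntegral.integral_mono_on hs i2 ((i1.const_mul _).add intervalIntegrable_const)
      fun s _ => by nlinarith [sq_nonneg (a * e s - D)]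
  rw [intervalIntegral.integral_add (i1.const_mul _) intervalIntegrable_const,
    intervalIntegral.integral_const_mul, intervalIntegral.integral_const, smul_eq_mul] at h1
  have h2 := mul_le_mul_of_nonneg_left h (show 0 ≤ 2 * a ^ 2 by positivity)
  have h3 : 2 * a ^ 2 * (θ / (2 * a ^ 2) * Z + C) = θ * Z + 2 * a ^ 2 * C := by field_simp
  linarith

theorem P_est (h : τ.Ok F m1 η Cs V) (hA : 1 ≤ A) (n0 n : ℕ) :
    (A * τ.lam (n0 + n)) ^ 4 * (1 + ((n + 1) *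
      memH (fun k => A * τ.lam (n0 + k)) (fun k => τ.t (n0 + k)) n) ^ 2 * τ.d (n0 + n)) ≤
      A ^ 5 * τ.P (n0 + n) := by
  have h1 := memH_le h hA n0 n
  have hd := d_pos h (n0 + n)
  have hl := lam_pos h (n0 + n)
  have hm := mem_ge h (n0 + n)
  have h0 : 0 ≤ memH (fun k => A * τ.lam (n0 + k)) (fun k => τ.t (n0 + k)) n :=
    add_nonneg zero_le_one (Finset.sum_nonneg fun j _ => div_nonneg (Real.sqrt_nonneg _)
      (Real.rpow_nonneg (d_pos h (n0 + j + 1)).le _))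
  have h2 : ((n : ℝ) + 1) * memH (fun k => A * τ.lam (n0 + k)) (fun k => τ.t (n0 + k)) n ≤
      √A * τ.be (n0 + n) := by
    have : (n : ℝ) + 1 ≤ ((n0 + n : ℕ) : ℝ) + 1 := by
      push_cast; linarith [n0.cast_nonneg (α := ℝ)]
    calc _ ≤ (((n0 + n : ℕ) : ℝ) + 1) * (√A * τ.mem (n0 + n)) :=
          mul_le_mul this h1 h0 (by positivity)
      _ = _ := by unfold TopD.be; ring
  have h3 := pow_le_pow_left₀ (by positivity) h2 2
  rw [mul_pow √A, Real.sq_sqrt (by linarith)] at h3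
  have h4 := mul_le_mul_of_nonneg_right h3 hd.le
  calc _ ≤ (A * τ.lam (n0 + n)) ^ 4 * (A * (1 + τ.be (n0 + n) ^ 2 * τ.d (n0 + n))) :=
        mul_le_mul_of_nonneg_left (by linarith) (by positivity)
    _ = _ := by unfold TopD.P; ring

theorem P_ge (h : τ.Ok F m1 η Cs V) (n : ℕ) : τ.lam n ^ 4 * τ.d n ≤ τ.P n := by
  have hd := d_pos h n
  have hb := be_ge h n
  have h1 : 1 ≤ τ.be n ^ 2 := one_le_pow₀ hb
  exact mul_le_mul_of_nonneg_left (by nlinarith) (by positivity)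

end Pe

open Pe

variable {M : Type*} [TopologicalSpace M] [ChartedSpace E4 M] [IsManifold 𝓘(ℝ, E4) ∞ M]
  [T3Space M] [ConnectedSpace M] [MeasurableSpace M] [BorelSpace M] [CompactSpace M]
  {F : Flow M}

theorem pest (hR : RAD F) (hC : CURV) (hP : PH F.hc) : Sk.PEST F := by
  intro m
  obtain ⟨mR, ηR, hηR, hR⟩ := hR
  obtain ⟨C0, ε0, hC0, hε0, cv1, cv2⟩ := hC
  refine ⟨max mR 2, min ηR (ε0 / 2), lt_min hηR (by positivity),
    fun m1 η Cs V τ hm hη h θ A hθ hA => ?_⟩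
  have hη2 : η ≤ ε0 / 2 := hη.trans (min_le_right _ _)
  set a : ℝ := 32768 * 3 ^ m with ha
  have ha0 : 0 < a := by positivity
  obtain ⟨δ, hδ, hP⟩ := hP (F.T / 2) τ.K (16 * |V|) (θ / (2 * a ^ 2)) m (half_pos F.hT) h.K_ge
    (by positivity)
  obtain ⟨A0, R0, n0, b, b', hA0, hR0, d1, d2, d3⟩ := hR m1 η Cs V τ ((le_max_left _ _).trans hm)
    (hη.trans (min_le_left _ _)) h δ hδ
  have D0 : RD F τ A0 R0 δ n0 b b' := ⟨d1,
    fun k hk => by obtain ⟨n, rfl⟩ := Nat.exists_eq_add_of_le hk; exact d2 n,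
    fun k hk => by obtain ⟨n, rfl⟩ := Nat.exists_eq_add_of_le hk; exact d3 n⟩
  set κ : ℝ := δ / (C0 * ε0) with hκ
  have hκ0 : 0 < κ := by positivity
  have hRp := R_pos h
  obtain ⟨A1, e1, e2, e3, e4⟩ : ∃ A1, A0 ≤ A1 ∧ A ≤ A1 ∧ τ.K ≤ A1 ∧ 2 / κ ^ 2 ≤ A1 :=
    ⟨max (max A0 A) (max τ.K (2 / κ ^ 2)), by simp, by simp, by simp, by simp⟩
  obtain ⟨R1, r0, r1, r2, r3, r4⟩ : ∃ R1, 0 < R1 ∧ R1 ≤ R0 ∧ R1 ≤ κ ^ 2 * τ.R / 2 ∧
      R1 ≤ τ.R / 2 ∧ R1 ≤ √δ :=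
    ⟨min (min R0 (κ ^ 2 * τ.R / 2)) (min (τ.R / 2) √δ), by positivity, by simp, by simp, by simp,
      by simp⟩
  have hA1 : 1 ≤ A1 := hA0.trans e1
  have D := D0.mono h (by linarith) e1 r0.le r1
  have rd := D.rd h hC0 hε0 hη2 ((le_max_right _ _).trans hm) cv1 hκ0
    (by rw [hκ]; exact le_of_eq (by field_simp)) hA1 ((div_le_iff₀ (by positivity)).1 e4) r0
    (by linarith) (by linarith)
  obtain ⟨L, C, hh, nH, B, e, hC, hh0, hB, hP⟩ := hP _ _ _ _ _ _ _ rd le_rfl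
    ((Real.le_sqrt r0.le hδ.le).1 r4) (h.t0.trans (t_mono h (Nat.zero_le _))) 1
  simp only [one_mul] at hB
  obtain ⟨Cf, hCf, hF⟩ := exists_far h hε0 hη2 cv2 m
  obtain ⟨r, q0, q1, q2⟩ : ∃ r, 0 < r ∧ r ≤ R1 / 3 ∧ r ≤ √hh / 3 :=
    ⟨min (R1 / 3) (√hh / 3), by positivity, min_le_left _ _, min_le_right _ _⟩
  have q3 : 9 * r ^ 2 ≤ hh := by
    have := (Real.le_sqrt (by positivity) hh0.le).1 (show 3 * r ≤ √hh by linarith)
    linarith
  set E : ℝ := Cf / r ^ 3 * τ.R with hE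
  have hE0 : 0 ≤ E := by positivity
  set L1 : ℝ := |L| * A1 ^ 2 with hL1
  have hL0 : 0 ≤ L1 := by positivity
  have hBL : ∀ k, B k ≤ L1 * τ.lam (n0 + k) ^ 2 := fun k => (hB k).2.trans (by
    rw [hL1, mul_assoc, ← mul_pow]
    exact mul_le_mul_of_nonneg_right (le_abs_self L) (sq_nonneg _))
  have hB0 : ∀ k, 0 ≤ B k := fun k => (sq_nonneg _).trans (hB k).1
  obtain ⟨n1, hn1⟩ : ∃ n1, ∀ k, n1 ≤ k → 32 * (L1 * τ.lam k ^ 2) ≤ R1 ^ 2 := by
    have : Tendsto (fun k => 32 * (L1 * τ.lam k ^ 2)) atTop (𝓝 (32 * (L1 * 0 ^ 2))) :=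
      (((lam_lim h).pow 2).const_mul _).const_mul _
    exact eventually_atTop.1 (this.eventually (ge_mem_nhds (by simpa using pow_pos r0 2)))
  set X1 : ℝ := a * (C * A1) + 32768 * (E * L1) with hX1
  set X2 : ℝ := 2 * a ^ 2 * C * A1 ^ 5 + 2 * (32768 * E * L1) ^ 2 with hX2
  have x1 : 0 < X1 := by positivity
  have x2 : 0 < X2 := by positivity
  refine ⟨max A √(32768 * L1), X1 + X2, n0 + nH + n1,
    fun n => if n0 ≤ n then √(32768 * B (n - n0)) else A * τ.lam n,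
    fun n s => a * e (n - n0) s + 32768 * E * B (n - n0), by positivity, fun n => ?_,
    fun n hn => ?_⟩
  · have hl := lam_pos h n
    by_cases hn : n0 ≤ n
    · obtain ⟨k, rfl⟩ := Nat.exists_eq_add_of_le hn
      simp only [if_pos hn, Nat.add_sub_cancel_left]
      constructor
      · refine Real.le_sqrt_of_sq_le ?_
        have := pow_le_pow_left₀ (by positivity) (mul_le_mul_of_nonneg_right e2 hl.le) 2
        linarith [(hB k).1, hB0 k]
      · refine le_trans ?_ (mul_le_mul_of_nonneg_right (le_max_right _ _) hl.le)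
        refine Real.sqrt_le_iff.2 ⟨by positivity, ?_⟩
        rw [mul_pow, Real.sq_sqrt (by positivity)]
        linarith [hBL k]
    · simp only [if_neg hn]
      exact ⟨le_rfl, mul_le_mul_of_nonneg_right (le_max_left _ _) hl.le⟩
  · obtain ⟨k, hk⟩ : ∃ k, n + 2 = n0 + k := ⟨n + 2 - n0, by omega⟩
    have z0 := Z_nonneg h (fun n => if n0 ≤ n then √(32768 * B (n - n0)) else A * τ.lam n) n
    have z1 := Z_nonneg h (fun n => if n0 ≤ n then √(32768 * B (n - n0)) else A * τ.lam n) (n + 1)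
    have p0 := P_nonneg h n
    have p1 := P_nonneg h (n + 1)
    generalize τ.Z F _ n = Z0 at z0 ⊢
    generalize τ.Z F _ (n + 1) = Z1 at z1 ⊢
    rw [show n + 3 = n0 + k + 1 by omega, hk]
    have hk0 : n0 ≤ n0 + k := Nat.le_add_right _ _
    simp only [if_pos hk0, Nat.add_sub_cancel_left, Sk.TopD.Z]
    obtain ⟨c1, c2, c3, c4⟩ := hP k (by omega)
    have hlt := (t_lt h (n0 + k)).le
    have hl := lam_pos h (n0 + k)
    have hl1 := lam_le_one h (n0 + k)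
    have cc : ContinuousOn (fun s => a * e k s + 32768 * E * B k)
        (Icc (τ.t (n0 + k)) (τ.t (n0 + k + 1))) := (continuousOn_const.mul c1).add continuousOn_const
    refine ⟨cc.intervalIntegrable_of_Icc hlt, (cc.pow 2).intervalIntegrable_of_Icc hlt,
      fun u hu s h1 h2 => ⟨fun h3 => ?_, fun h3 => ?_⟩, ?_⟩
    · refine ebd_mono (D.ebd h e3 hCf hF q0 (by linarith) q3 hk0 hu h1 h2 h3.le (hB k).1
        (c2 s ⟨hu.1.trans h1, h3.le⟩).1) (le_of_eq ?_)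
      rw [ha, hE]; ring
    · refine ebd_mono (D.ebd h e3 hCf hF q0 (by linarith) q3 hk0 hu h1 h2 h3 (hB k).1
        (c2 s ⟨hu.1.trans h1, h3⟩).2) ?_
      rw [← hE, hX1, ha]
      exact ar_sup hl hl1 hE0 hL0 x2.le (hBL k)
    · have hs := hn1 (n0 + k) (by omega)
      have hBk := hBL k
      have hρ : (√(32768 * B k) / 32) ^ 2 = 32 * B k := by
        rw [div_pow, Real.sq_sqrt (by linarith [hB0 k])]; ring
      have hAl : τ.lam (n0 + k) ^ 2 ≤ B k :=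
        le_trans (pow_le_pow_left₀ hl.le (le_mul_of_one_le_left hl.le hA1) 2) (hB k).1
      have g1 : τ.lam (n0 + k) ≤ √(32768 * B k) / 32 :=
        le_of_pow_le_pow_left₀ two_ne_zero (by positivity) (by linarith [hB0 k])
      have g2 : √(32768 * B k) / 32 ≤ R1 := le_of_pow_le_pow_left₀ two_ne_zero r0.le (by linarith)
      have an : ∫ s in τ.t (n0 + k)..τ.t (n0 + k + 1),
          An F.hc b (F.hc.Q 0) ((A1 * τ.lam (n0 + k)) ^ 2) (8 * B k) s ≤
          ∫ s in τ.t (n0 + k)..τ.t (n0 + k + 1), τ.ms F (√(32768 * B k) / 32) s :=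
        intervalIntegral.integral_mono_on_of_le_Ioo hlt
          ((intervalIntegrable_iff_integrableOn_Icc_of_le hlt).2 c3)
          (h.int _ _ ⟨g1, by linarith⟩) fun s hs' =>
            D.an_le h hk0 (Ioo_subset_Ico_self hs') (by linarith [hB0 k]) (hl.trans_le g1) hρ.ge
      have pe := P_est h hA1 n0 k
      have pg := P_ge h (n0 + k)
      have p2 := P_nonneg h (n0 + k)
      have hd := d_pos h (n0 + k)
      exact (int_est (D := 32768 * E * B k) (X := X2) (P := τ.P (n0 + k)) hlt c1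
        (c4.trans (add_le_add (mul_le_mul_of_nonneg_left an (by positivity))
          (mul_le_mul_of_nonneg_left pe hC.le))) ha0 (ar_P (hB0 k) hBk hd.le pg)).trans
        (ar_end hθ.le z0 z1 x1.le x2.le p0 p1 p2)

end Crest.Agent.N207.NP

end
end

-- ▼ part N207/Rad/Mesh
section

/-!
# Row 207, block P0 (helper89): the space-time mesh
-/

set_option autoImplicit false
set_option linter.dupNamespace false
set_option linter.unusedSectionVars false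
open Set MeasureTheory Filter Topology
open scoped ContDiff

noncomputable section

namespace Crest.Agent.N207.Rad

/-- the time bump: `1` on `|s| ≤ 1`, `0` on `2 ≤ |s|` -/
def bmp (s : ℝ) : ℝ := E.zeta s * E.zeta (-s)

theorem bmp_cd : ContDiff ℝ ∞ bmp := E.zeta_cd.mul (E.zeta_cd.comp contDiff_neg)

theorem bmp_nonneg (s : ℝ) : 0 ≤ bmp s := mul_nonneg (E.zeta_nonneg _) (E.zeta_nonneg _)

theorem bmp_le (s : ℝ) : bmp s ≤ 1 :=
  mul_le_one₀ (E.zeta_le_one _) (E.zeta_nonneg _) (E.zeta_le_one _)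

theorem bmp_one {s : ℝ} (h : |s| ≤ 1) : bmp s = 1 := by
  obtain ⟨a, b⟩ := abs_le.1 h
  rw [bmp, E.zeta_one b, E.zeta_one (by linarith), one_mul]

theorem bmp_zero {s : ℝ} (h : 2 ≤ |s|) : bmp s = 0 := by
  rcases le_abs.1 h with a | a
  · rw [bmp, E.zeta_zero a, zero_mul]
  · rw [bmp, E.zeta_zero a, mul_zero]

theorem bmp_deriv_zero {s : ℝ} (h : 2 < |s|) : deriv bmp s = 0 := by
  have : bmp =ᶠ[𝓝 s] fun _ => 0 := by
    filter_upwards [continuous_abs.continuousAt.eventually (lt_mem_nhds h)] with y hy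
    exact bmp_zero hy.le
  rw [this.deriv_eq, deriv_const]

theorem bmp_deriv_bdd : ∃ K : ℝ, 1 ≤ K ∧ ∀ s, |deriv bmp s| ≤ K := by
  obtain ⟨K, hK, h⟩ := bdd2 bmp_cd
  refine ⟨K, hK, fun s => ?_⟩
  rcases lt_or_ge 2 |s| with a | a
  · rw [bmp_deriv_zero a, abs_zero]; linarith
  · obtain ⟨b, c⟩ := abs_le.1 a
    exact (h s ⟨by linarith, by linarith⟩).1

/-- the dyadic scales -/
def rj (r0 : ℝ) (j : ℕ) : ℝ := r0 / 2 ^ j

/-- the rescaled time of the window `i = (j,k)` -/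
def tau (t0 r0 : ℝ) (i : ℕ × ℕ) (t : ℝ) : ℝ := (t - t0) / (rj r0 i.1 ^ 2 / 32) - i.2

variable {T t0 r0 : ℝ} {a : ℝ → ℝ}

theorem rj_pos (h : 0 < r0) (j : ℕ) : 0 < rj r0 j := by unfold rj; positivity

theorem rj_zero : rj r0 0 = r0 := by simp [rj]

theorem rj_succ (j : ℕ) : rj r0 (j + 1) = rj r0 j / 2 := by unfold rj; rw [pow_succ, div_div]

theorem rj_le (h : 0 < r0) {i j : ℕ} (hij : i ≤ j) : rj r0 j ≤ rj r0 i := by
  unfold rj; gcongr; norm_num

theorem rj_le_r0 (h : 0 < r0) (j : ℕ) : rj r0 j ≤ r0 := by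
  simpa [rj_zero] using rj_le h (Nat.zero_le j)

theorem exists_rj_lt (h : 0 < r0) {m : ℝ} (hm : 0 < m) : ∃ J, ∀ j, J ≤ j → rj r0 j < m := by
  obtain ⟨J, hJ⟩ := pow_unbounded_of_one_lt (r0 / m) (one_lt_two (α := ℝ))
  refine ⟨J, fun j hj => (rj_le h hj).trans_lt ?_⟩
  rw [rj, div_lt_iff₀ (by positivity)]
  rw [div_lt_iff₀ hm] at hJ
  linarith

theorem tau_sub (h : 0 < r0) (i : ℕ × ℕ) (t t' : ℝ) :
    t' - t = (tau t0 r0 i t' - tau t0 r0 i t) * (rj r0 i.1 ^ 2 / 32) := by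
  have := rj_pos h i.1
  unfold tau; field_simp; ring

theorem tau_cd (i : ℕ × ℕ) : ContDiff ℝ ∞ (tau t0 r0 i) := by unfold tau; fun_prop

theorem tau_deriv (i : ℕ × ℕ) (t : ℝ) : HasDerivAt (tau t0 r0 i) (32 / rj r0 i.1 ^ 2) t := by
  unfold tau
  have := (((hasDerivAt_id t).sub_const t0).div_const (rj r0 i.1 ^ 2 / 32)).sub_const (i.2 : ℝ)
  simpa using this

/-- the window has a chart -/
def Val (T t0 r0 : ℝ) (a : ℝ → ℝ) (i : ℕ × ℕ) : Prop :=
  ∃ s ∈ Ico t0 T, a s ≤ rj r0 i.1 ∧ ∀ t, |tau t0 r0 i t| ≤ 2 → |t - s| ≤ rj r0 i.1 ^ 2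

/-- the window carries the inner weight -/
def Bot (T t0 r0 : ℝ) (a : ℝ → ℝ) (i : ℕ × ℕ) : Prop :=
  ∀ t ∈ Ico t0 T, |tau t0 r0 i t| ≤ 2 → rj r0 (i.1 + 1) < a t

/-- the inner scale -/
structure Sc (T t0 r0 : ℝ) (a : ℝ → ℝ) : Prop where
  pos : ∀ t ∈ Ico t0 T, 0 < a t
  anti : AntitoneOn a (Ico t0 T)
  le : ∀ t ∈ Ico t0 T, a t ≤ r0

/-- local finiteness -/
theorem Sc.fin (h : Sc T t0 r0 a) (hr : 0 < r0) {s1 : ℝ} (hs : s1 ∈ Ico t0 T) :
    ∃ S : Finset (ℕ × ℕ), ∀ i, Val T t0 r0 a i → ∀ t ∈ Icc t0 s1, |tau t0 r0 i t| ≤ 2 → i ∈ S := by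
  set s2 := (s1 + T) / 2 with hs2
  have h2 : s2 ∈ Ico t0 T := ⟨by linarith [hs.1, hs.2], by linarith [hs.2]⟩
  have h3 : 0 < s2 - s1 := by linarith [hs.2]
  have hm : 0 < min (a s2) (√(s2 - s1)) := lt_min (h.pos s2 h2) (Real.sqrt_pos.2 h3)
  obtain ⟨J, hJ⟩ := exists_rj_lt hr hm
  obtain ⟨Kk, hK⟩ := exists_nat_gt ((s1 - t0) / (rj r0 J ^ 2 / 32) + 2)
  refine ⟨Finset.range J ×ˢ Finset.range Kk, fun i ⟨s, hsI, has, hw⟩ t ht hτ => ?_⟩
  have hj : i.1 < J := by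
    by_contra hc
    have b1 := hJ i.1 (not_lt.1 hc)
    have b2 : rj r0 i.1 ^ 2 ≤ s2 - s1 := by
      have := (b1.trans_le (min_le_right _ _)).le
      rw [Real.le_sqrt (rj_pos hr _).le h3.le] at this
      exact this
    have b3 := (abs_le.1 (hw t hτ)).1
    have b4 := h.anti hsI h2 (by linarith [ht.2])
    linarith [b1.trans_le (min_le_left _ _)]
  rw [Finset.mem_product, Finset.mem_range, Finset.mem_range]
  refine ⟨hj, ?_⟩
  have c1 := (abs_le.1 hτ).1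
  have c2 : (t - t0) / (rj r0 i.1 ^ 2 / 32) ≤ (s1 - t0) / (rj r0 J ^ 2 / 32) := by
    have := rj_le hr hj.le
    have := rj_pos hr J
    gcongr
    · linarith [hs.1]
    · exact ht.2
  unfold tau at c1
  exact_mod_cast (show (i.2 : ℝ) < Kk by linarith)

/-- every point is on the plateau of some window -/
theorem Sc.plateau (h : Sc T t0 r0 a) (hr : 0 < r0) {t : ℝ} (ht : t ∈ Ico t0 T) (ρ : ℝ) :
    ∃ i : ℕ × ℕ, Val T t0 r0 a i ∧ |tau t0 r0 i t| ≤ 1 ∧ (i.1 = 0 ∨ ρ ≤ 13 / 10 * rj r0 i.1) ∧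
      (Bot T t0 r0 a i ∨ 13 / 20 * rj r0 i.1 ≤ ρ) := by
  classical
  let av : ℕ → Prop := fun j => ∃ s ∈ Ico t0 T, t ≤ s ∧ s ≤ t + rj r0 j ^ 2 / 2 ∧ a s ≤ rj r0 j
  have a0 : av 0 := ⟨t, ht, le_rfl, by linarith [sq_nonneg (rj r0 0)], rj_zero ▸ h.le t ht⟩
  have a1 : ∃ j, ¬ av (j + 1) := by
    set s2 := (t + T) / 2 with hs2
    have h2 : s2 ∈ Ico t0 T := ⟨by linarith [ht.1, ht.2], by linarith [ht.2]⟩
    have h3 : 0 < s2 - t := by linarith [ht.2]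
    obtain ⟨J, hJ⟩ := exists_rj_lt hr (lt_min (h.pos s2 h2) (Real.sqrt_pos.2 h3))
    refine ⟨J, fun ⟨s, hs, _, b2, b3⟩ => ?_⟩
    have b1 := hJ (J + 1) (Nat.le_succ J)
    have b4 : rj r0 (J + 1) ^ 2 ≤ s2 - t := by
      have := (b1.trans_le (min_le_right _ _)).le
      rw [Real.le_sqrt (rj_pos hr _).le h3.le] at this
      exact this
    have b5 := h.anti hs h2 (by linarith)
    linarith [b1.trans_le (min_le_left _ _)]
  set J := Nat.find a1 with hJ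
  have a2 : ∀ j ≤ J, av j := fun j hj => by
    rcases j with _ | j
    · exact a0
    · exact not_not.1 (Nat.find_min a1 (Nat.lt_of_succ_le hj))
  have a3 : ¬ av (J + 1) := Nat.find_spec a1
  have key : ∀ j ≤ J, ∃ k : ℕ, Val T t0 r0 a (j, k) ∧ |tau t0 r0 (j, k) t| ≤ 1 ∧
      (j = J → Bot T t0 r0 a (j, k)) := by
    intro j hj
    have hp := rj_pos hr j
    have hq : 0 ≤ (t - t0) / (rj r0 j ^ 2 / 32) := by have := ht.1; apply div_nonneg <;> [linarith; positivity]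
    have b1 : |tau t0 r0 (j, ⌊(t - t0) / (rj r0 j ^ 2 / 32)⌋₊) t| ≤ 1 := by
      have := Nat.floor_le hq
      have := Nat.lt_floor_add_one ((t - t0) / (rj r0 j ^ 2 / 32))
      unfold tau
      exact abs_le.2 ⟨by simp only; linarith, by simp only; linarith⟩
    have b2 : ∀ t', |tau t0 r0 (j, ⌊(t - t0) / (rj r0 j ^ 2 / 32)⌋₊) t'| ≤ 2 →
        |t' - t| ≤ 3 * (rj r0 j ^ 2 / 32) := fun t' ht' => by
      rw [tau_sub (t0 := t0) hr (j, ⌊(t - t0) / (rj r0 j ^ 2 / 32)⌋₊) t t', abs_mul,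
        abs_of_pos (show 0 < rj r0 j ^ 2 / 32 by positivity)]
      have := abs_sub (tau t0 r0 (j, ⌊(t - t0) / (rj r0 j ^ 2 / 32)⌋₊) t')
        (tau t0 r0 (j, ⌊(t - t0) / (rj r0 j ^ 2 / 32)⌋₊) t)
      exact mul_le_mul_of_nonneg_right (by linarith) (by positivity)
    refine ⟨_, ?_, b1, ?_⟩
    · obtain ⟨s, hs, c1, c2, c3⟩ := a2 j hj
      refine ⟨s, hs, c3, fun t' ht' => ?_⟩
      obtain ⟨d1, d2⟩ := abs_le.1 (b2 t' ht')
      have := sq_nonneg (rj r0 j)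
      exact abs_le.2 ⟨by simp only; linarith, by simp only; linarith⟩
    · rintro rfl t' ht' hτ
      by_contra hc
      rcases le_total t' t with c | c
      · exact a3 ⟨t, ht, le_rfl, by linarith [sq_nonneg (rj r0 (J + 1))],
          (h.anti ht' ht c).trans (not_lt.1 hc)⟩
      · refine a3 ⟨t', ht', c, ?_, not_lt.1 hc⟩
        have := (abs_le.1 (b2 t' hτ)).2
        rw [rj_succ]; nlinarith [sq_nonneg (rj r0 J)]
  by_cases h0 : ρ ≤ 13 / 10 * rj r0 0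
  · let P : ℕ → Prop := fun j => ρ ≤ 13 / 10 * rj r0 j
    have hj : Nat.findGreatest P J ≤ J := Nat.findGreatest_le J
    have hP : P (Nat.findGreatest P J) := Nat.findGreatest_spec (Nat.zero_le J) h0
    obtain ⟨k, k1, k2, k3⟩ := key _ hj
    refine ⟨(_, k), k1, k2, Or.inr hP, ?_⟩
    rcases hj.eq_or_lt with e | e
    · exact Or.inl (k3 e)
    · right
      have : ¬ P (Nat.findGreatest P J + 1) :=
        Nat.findGreatest_is_greatest (Nat.lt_succ_self _) e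
      simp only [P, rj_succ, not_le] at this
      simp only; linarith
  · obtain ⟨k, k1, k2, -⟩ := key 0 (Nat.zero_le J)
    refine ⟨(0, k), k1, k2, Or.inl rfl, Or.inr ?_⟩
    have := rj_pos hr 0
    simp only; linarith

theorem card_le_of_near (S : Finset ℕ) (h : ∀ i ∈ S, ∀ j ∈ S, i ≤ j + 4) : S.card ≤ 5 := by
  rcases S.eq_empty_or_nonempty with rfl | hS
  · simp
  · calc S.card ≤ (Finset.Icc (S.min' hS) (S.min' hS + 4)).card :=
          Finset.card_le_card fun i hi =>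
            Finset.mem_Icc.2 ⟨S.min'_le i hi, h i hi _ (S.min'_mem hS)⟩
      _ = 5 := by simp only [Nat.card_Icc]; omega

/-- at most 25 windows are alive -/
theorem card_alive (hr : 0 < r0) (S : Finset (ℕ × ℕ)) {t ρ : ℝ}
    (h : ∀ i ∈ S, |tau t0 r0 i t| ≤ 2 ∧ 3 / 10 * rj r0 i.1 ≤ ρ ∧ ρ ≤ 3 * rj r0 i.1) :
    S.card ≤ 25 := by
  classical
  have h1 : (S.image Prod.fst).card ≤ 5 := card_le_of_near _ fun i hi j hj => by
    obtain ⟨p, hp, rfl⟩ := Finset.mem_image.1 hi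
    obtain ⟨q, hq, rfl⟩ := Finset.mem_image.1 hj
    by_contra hc
    have a1 := rj_le hr (show q.1 + 4 ≤ p.1 by omega)
    simp only [rj_succ] at a1
    have := rj_pos hr q.1
    linarith [(h p hp).2.2, (h q hq).2.1]
  have h2 : ∀ j ∈ S.image Prod.fst, (S.filter fun i => i.1 = j).card ≤ 5 := fun j _ => by
    rw [← Finset.card_image_of_injOn (f := Prod.snd) (fun p hp q hq e => Prod.ext
      ((Finset.mem_filter.1 hp).2.trans (Finset.mem_filter.1 hq).2.symm) e)]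
    refine card_le_of_near _ fun i hi k hk => ?_
    obtain ⟨p, hp, rfl⟩ := Finset.mem_image.1 hi
    obtain ⟨q, hq, rfl⟩ := Finset.mem_image.1 hk
    obtain ⟨hp1, hp2⟩ := Finset.mem_filter.1 hp
    obtain ⟨hq1, hq2⟩ := Finset.mem_filter.1 hq
    have a1 := (abs_le.1 (h p hp1).1).1
    have a2 := (abs_le.1 (h q hq1).1).2
    unfold tau at a1 a2
    rw [hp2] at a1; rw [hq2] at a2
    exact_mod_cast (show (p.2 : ℝ) ≤ q.2 + 4 by linarith)
  calc S.card ≤ 5 * (S.image Prod.fst).card := Finset.card_le_mul_card_image S 5 h2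
    _ ≤ 25 := by omega

end Crest.Agent.N207.Rad

end
end

-- ▼ part N207/Rad/Fam
section

/-!
# Row 207, block P0 (helper89): the glued function `b` and its basic properties
-/

set_option autoImplicit false
set_option linter.dupNamespace false
set_option linter.unusedSectionVars false
open Set MeasureTheory Filter Topology
open scoped ContDiff Classical

noncomputable section

namespace Crest.Agent.N207.Rad

variable {M : Type*} [TopologicalSpace M] [CompactSpace M] [MeasurableSpace M]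

/-- a family of static radial functions, one for each window -/
structure Fam (H : HC M) (t0 r0 η : ℝ) (a : ℝ → ℝ) (z : ℝ → M) (β : ℕ × ℕ → M → ℝ) : Prop where
  t0_pos : 0 < t0
  r0_pos : 0 < r0
  η_le : η ≤ 1 / 100
  sc : Sc H.T t0 r0 a
  s0 : ∀ i, H.S0 (β i)
  pos : ∀ i x, 0 < β i x
  loc : ∀ i, Val H.T t0 r0 a i → ∀ t ∈ Ico t0 H.T, |tau t0 r0 i t| ≤ 2 →
    LocAt H t (z t) η (rj r0 i.1) (β i)

section defs
variable (T t0 r0 : ℝ) (a : ℝ → ℝ) (β : ℕ × ℕ → M → ℝ)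

/-- the static weights -/
def wS (i : ℕ × ℕ) (x : M) : ℝ :=
  if Val T t0 r0 a i then cW (i.1 = 0) (Bot T t0 r0 a i) (β i x / rj r0 i.1 ^ 2) else 0

/-- the weights -/
def wP (i : ℕ × ℕ) (t : ℝ) (x : M) : ℝ := bmp (tau t0 r0 i t) * wS T t0 r0 a β i x

/-- their time derivatives -/
def wP' (i : ℕ × ℕ) (t : ℝ) (x : M) : ℝ :=
  deriv bmp (tau t0 r0 i t) * (32 / rj r0 i.1 ^ 2) * wS T t0 r0 a β i x

/-- the total weight -/
def wW (t : ℝ) (x : M) : ℝ := ∑ᶠ i, wP T t0 r0 a β i t x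

/-- the glued function -/
def gb (t : ℝ) (x : M) : ℝ := (∑ᶠ i, wP T t0 r0 a β i t x * β i x) / wW T t0 r0 a β t x

/-- its time derivative -/
def gb' (t : ℝ) (x : M) : ℝ :=
  (∑ᶠ i, wP' T t0 r0 a β i t x * (β i x - gb T t0 r0 a β t x)) / wW T t0 r0 a β t x

/-- `S` contains the windows that meet the time `t` -/
def Cov (S : Finset (ℕ × ℕ)) (t : ℝ) : Prop :=
  ∀ i, Val T t0 r0 a i → |tau t0 r0 i t| ≤ 2 → i ∈ S

variable {T t0 r0 a β}

theorem wS_nonneg (i : ℕ × ℕ) (x : M) : 0 ≤ wS T t0 r0 a β i x := by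
  unfold wS; split_ifs
  · exact cW_nonneg _ _ _
  · exact le_rfl

theorem wS_le (i : ℕ × ℕ) (x : M) : wS T t0 r0 a β i x ≤ 1 := by
  unfold wS; split_ifs
  · exact cW_le _ _ _
  · exact zero_le_one

theorem wP_nonneg (i : ℕ × ℕ) (t : ℝ) (x : M) : 0 ≤ wP T t0 r0 a β i t x :=
  mul_nonneg (bmp_nonneg _) (wS_nonneg i x)

theorem wP_zero {i : ℕ × ℕ} {t : ℝ} (h : ¬ (Val T t0 r0 a i ∧ |tau t0 r0 i t| ≤ 2)) (x : M) :
    wP T t0 r0 a β i t x = 0 ∧ wP' T t0 r0 a β i t x = 0 := by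
  by_cases hv : Val T t0 r0 a i
  · have h2 : 2 < |tau t0 r0 i t| := not_le.1 fun e => h ⟨hv, e⟩
    simp [wP, wP', bmp_zero h2.le, bmp_deriv_zero h2]
  · simp [wP, wP', wS, hv]

variable {S : Finset (ℕ × ℕ)} {t : ℝ}

theorem Cov.fs (hS : Cov T t0 r0 a S t) {f : ℕ × ℕ → ℝ}
    (hf : ∀ i, ¬ (Val T t0 r0 a i ∧ |tau t0 r0 i t| ≤ 2) → f i = 0) :
    ∑ᶠ i, f i = ∑ i ∈ S, f i :=
  finsum_eq_sum_of_support_subset _ fun i hi => by
    by_contra hc
    exact hi (hf i fun e => hc (hS i e.1 e.2))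

theorem Cov.wW (hS : Cov T t0 r0 a S t) (x : M) :
    wW T t0 r0 a β t x = ∑ i ∈ S, wP T t0 r0 a β i t x := hS.fs fun _ h => (wP_zero h x).1

theorem Cov.gb (hS : Cov T t0 r0 a S t) (x : M) : gb T t0 r0 a β t x =
    (∑ i ∈ S, wP T t0 r0 a β i t x * β i x) / ∑ i ∈ S, wP T t0 r0 a β i t x := by
  rw [Rad.gb, hS.wW, hS.fs fun _ h => by rw [(wP_zero h x).1, zero_mul]]

theorem Cov.gb' (hS : Cov T t0 r0 a S t) (x : M) : gb' T t0 r0 a β t x =
    (∑ i ∈ S, wP' T t0 r0 a β i t x * (β i x - Rad.gb T t0 r0 a β t x)) /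
      ∑ i ∈ S, wP T t0 r0 a β i t x := by
  rw [Rad.gb', hS.wW, hS.fs fun _ h => by rw [(wP_zero h x).2, zero_mul]]

end defs

variable {H : HC M} {t0 r0 η : ℝ} {a : ℝ → ℝ} {z : ℝ → M} {β : ℕ × ℕ → M → ℝ}
  (F : Fam H t0 r0 η a z β)
include F

theorem Fam.mem {t : ℝ} (ht : t ∈ Ico t0 H.T) : t ∈ Ioo 0 H.T := ⟨F.t0_pos.trans_le ht.1, ht.2⟩

theorem Fam.cov {s1 : ℝ} (hs : s1 ∈ Ico t0 H.T) :
    ∃ S : Finset (ℕ × ℕ), ∀ t ∈ Icc t0 s1, Cov H.T t0 r0 a S t := by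
  obtain ⟨S, hS⟩ := F.sc.fin F.r0_pos hs
  exact ⟨S, fun t ht i hi hτ => hS i hi t ht hτ⟩

theorem Fam.cov1 {t : ℝ} (ht : t ∈ Ico t0 H.T) : ∃ S : Finset (ℕ × ℕ), Cov H.T t0 r0 a S t :=
  (F.cov ht).imp fun _ h => h t ⟨ht.1, le_rfl⟩

theorem Fam.plateau {t : ℝ} (ht : t ∈ Ico t0 H.T) (x : M) : ∃ i : ℕ × ℕ, Val H.T t0 r0 a i ∧
    |tau t0 r0 i t| ≤ 2 ∧ (i.1 = 0 ∨ H.d t (z t) x ≤ 13 / 10 * rj r0 i.1) ∧
    (Bot H.T t0 r0 a i ∨ 13 / 20 * rj r0 i.1 ≤ H.d t (z t) x) ∧ wP H.T t0 r0 a β i t x = 1 := by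
  obtain ⟨i, h1, h2, h3, h4⟩ := F.sc.plateau F.r0_pos ht (H.d t (z t) x)
  have h5 : |tau t0 r0 i t| ≤ 2 := h2.trans one_le_two
  have L := F.loc i h1 t ht h5
  have hp := rj_pos F.r0_pos i.1
  refine ⟨i, h1, h5, h3, h4, ?_⟩
  rw [wP, bmp_one h2, wS, if_pos h1, one_mul]
  exact cW_one (h3.imp_right (L.le_two F.η_le hp)) (h4.imp_right (L.ge_two F.η_le hp))

theorem Fam.one_le {t : ℝ} (ht : t ∈ Ico t0 H.T) {S : Finset (ℕ × ℕ)} (hS : Cov H.T t0 r0 a S t)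
    (x : M) : 1 ≤ ∑ i ∈ S, wP H.T t0 r0 a β i t x := by
  obtain ⟨i, h1, h2, -, -, h3⟩ := F.plateau ht x
  rw [← h3]
  exact Finset.single_le_sum (f := fun i => wP H.T t0 r0 a β i t x)
    (fun j _ => wP_nonneg j t x) (hS i h1 h2)

/-- what a non zero weight says -/
theorem Fam.alive {t : ℝ} (ht : t ∈ Ico t0 H.T) {i : ℕ × ℕ} {x : M} (hv : Val H.T t0 r0 a i)
    (hτ : |tau t0 r0 i t| ≤ 2) (h : wS H.T t0 r0 a β i x ≠ 0) :
    (i.1 = 0 ∨ H.d t (z t) x < 3 * rj r0 i.1) ∧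
      (Bot H.T t0 r0 a i ∨ 3 / 10 * rj r0 i.1 < H.d t (z t) x) := by
  have L := F.loc i hv t ht hτ
  have hp := rj_pos F.r0_pos i.1
  rw [wS, if_pos hv] at h
  constructor
  · by_contra hc
    rw [not_or, not_lt] at hc
    exact h (cW_top hc.1 (L.big F.η_le hp hc.2))
  · by_contra hc
    rw [not_or, not_lt] at hc
    exact h (cW_bot hc.1 (L.small F.η_le hp hc.2))

theorem Fam.gb_le {t : ℝ} (ht : t ∈ Ico t0 H.T) {x : M} {c : ℝ}
    (h : ∀ i, Val H.T t0 r0 a i → |tau t0 r0 i t| ≤ 2 → wS H.T t0 r0 a β i x ≠ 0 → β i x ≤ c) :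
    gb H.T t0 r0 a β t x ≤ c := by
  obtain ⟨S, hS⟩ := F.cov1 ht
  rw [hS.gb, div_le_iff₀ (one_pos.trans_le (F.one_le ht hS x)), Finset.mul_sum]
  refine Finset.sum_le_sum fun i _ => ?_
  by_cases h1 : Val H.T t0 r0 a i ∧ |tau t0 r0 i t| ≤ 2
  · by_cases h2 : wS H.T t0 r0 a β i x = 0
    · simp [wP, h2]
    · rw [mul_comm c]; exact mul_le_mul_of_nonneg_left (h i h1.1 h1.2 h2) (wP_nonneg i t x)
  · simp [(wP_zero h1 x).1]

theorem Fam.le_gb {t : ℝ} (ht : t ∈ Ico t0 H.T) {x : M} {c : ℝ}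
    (h : ∀ i, Val H.T t0 r0 a i → |tau t0 r0 i t| ≤ 2 → wS H.T t0 r0 a β i x ≠ 0 → c ≤ β i x) :
    c ≤ gb H.T t0 r0 a β t x := by
  obtain ⟨S, hS⟩ := F.cov1 ht
  rw [hS.gb, le_div_iff₀ (one_pos.trans_le (F.one_le ht hS x)), Finset.mul_sum]
  refine Finset.sum_le_sum fun i _ => ?_
  by_cases h1 : Val H.T t0 r0 a i ∧ |tau t0 r0 i t| ≤ 2
  · by_cases h2 : wS H.T t0 r0 a β i x = 0
    · simp [wP, h2]
    · rw [mul_comm c]; exact mul_le_mul_of_nonneg_left (h i h1.1 h1.2 h2) (wP_nonneg i t x)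
  · simp [(wP_zero h1 x).1]

theorem Fam.gb_pos {t : ℝ} (ht : t ∈ Ico t0 H.T) (x : M) : 0 < gb H.T t0 r0 a β t x := by
  obtain ⟨S, hS⟩ := F.cov1 ht
  obtain ⟨i, h1, h2, -, -, -⟩ := F.plateau ht x
  have hne : S.Nonempty := ⟨i, hS i h1 h2⟩
  obtain ⟨j, -, hj⟩ := S.exists_min_image (fun i => β i x) hne
  exact (F.pos j x).trans_le (F.le_gb ht fun i e1 e2 _ => hj i (hS i e1 e2))

/-- inside -/
theorem Fam.gb_inn {t : ℝ} (ht : t ∈ Ico t0 H.T) {x : M} (h0 : 0 ≤ H.d t (z t) x)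
    (hx : H.d t (z t) x ≤ a t) : gb H.T t0 r0 a β t x ≤ 2 * a t ^ 2 := by
  refine F.gb_le ht fun i hv hτ h => ?_
  obtain ⟨h1, h2⟩ := F.alive ht hv hτ h
  have L := F.loc i hv t ht hτ
  have hp := rj_pos F.r0_pos i.1
  have ha := F.sc.pos t ht
  have b1 : H.d t (z t) x ≤ 4 * rj r0 i.1 := by
    rcases h1 with e | e
    · rw [e, rj_zero]; linarith [F.sc.le t ht, F.r0_pos]
    · linarith
  have b2 : rj r0 i.1 ≤ 10 / 3 * a t := by
    rcases h2 with e | e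
    · have := e t ht hτ
      rw [rj_succ] at this; linarith
    · linarith
  have b3 : rj r0 i.1 ^ 2 ≤ 12 * a t ^ 2 := by nlinarith
  rcases le_total (H.d t (z t) x) (rj r0 i.1 / 4) with e | e
  · have := L.inn x e; nlinarith
  · have := (abs_le.1 (L.mid x e b1).1).2
    have := F.η_le
    nlinarith [sq_nonneg (rj r0 i.1)]

/-- outside -/
theorem Fam.gb_out {t : ℝ} (ht : t ∈ Ico t0 H.T) {x : M} (hx : 2 * r0 ≤ H.d t (z t) x) :
    3 * r0 ^ 2 ≤ gb H.T t0 r0 a β t x := by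
  refine F.le_gb ht fun i hv hτ h => ?_
  obtain ⟨h1, -⟩ := F.alive ht hv hτ h
  have L := F.loc i hv t ht hτ
  have hr := F.r0_pos
  have b1 : i.1 = 0 := by
    by_contra hc
    have e := h1.resolve_left hc
    have := rj_le hr (show 0 + 1 ≤ i.1 by omega)
    rw [rj_succ, rj_zero] at this
    linarith
  rw [b1, rj_zero] at L
  rcases le_total (4 * r0) (H.d t (z t) x) with e | e
  · have := L.out x e; nlinarith
  · have := (abs_le.1 (L.mid x (by linarith) e).1).1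
    have := F.η_le
    nlinarith

variable (A : H.Alg)
include A

theorem Fam.wS_s0 (i : ℕ × ℕ) : H.S0 (wS H.T t0 r0 a β i) := by
  unfold wS
  by_cases hv : Val H.T t0 r0 a i
  · simp only [hv, if_true]
    have := A.s0_compU (cW_cd (i.1 = 0) (Bot H.T t0 r0 a i)) (A.s0_cmul (rj r0 i.1 ^ 2)⁻¹ (F.s0 i))
    simpa only [inv_mul_eq_div] using this
  · simp only [hv, if_false]; exact A.s0_const 0

omit F in
theorem sm_sum {ι : Type*} {s0 s1 : ℝ} (S : Finset ι) {f : ι → ℝ → M → ℝ}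
    (h : ∀ i ∈ S, H.Sm s0 s1 (f i)) : H.Sm s0 s1 fun t x => ∑ i ∈ S, f i t x := by
  induction S using Finset.induction_on with
  | empty => simpa using A.sm_const 0
  | insert i s hi ih =>
    simp only [Finset.sum_insert hi]
    exact A.sm_add (h i (Finset.mem_insert_self _ _))
      (ih fun j hj => h j (Finset.mem_insert_of_mem hj))

theorem Fam.wP_sm (s0 s1 : ℝ) (i : ℕ × ℕ) : H.Sm s0 s1 (wP H.T t0 r0 a β i) :=
  A.sm_mul (A.sm_timeU (bmp_cd.comp (tau_cd i))) (A.sm_static (F.wS_s0 A i))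

theorem Fam.gb_sm {s0 s1 : ℝ} (h0 : t0 ≤ s0) (h01 : s0 ≤ s1) (h1 : s1 < H.T) :
    H.Sm s0 s1 (gb H.T t0 r0 a β) := by
  obtain ⟨S, hS⟩ := F.cov (s1 := s1) ⟨h0.trans h01, h1⟩
  refine A.sm_congr (A.sm_div
    (sm_sum A S fun i _ => A.sm_mul (F.wP_sm A s0 s1 i) (A.sm_static (F.s0 i)))
    (sm_sum A S fun i _ => F.wP_sm A s0 s1 i) fun t ht x => one_pos.trans_le
      (F.one_le ⟨h0.trans ht.1, ht.2.trans_lt h1⟩ (hS t ⟨h0.trans ht.1, ht.2⟩) x)) fun t ht => ?_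
  funext x
  exact (hS t ⟨h0.trans ht.1, ht.2⟩).gb x

omit A in
theorem Fam.gb_dt {s0 s1 : ℝ} (h0 : t0 ≤ s0) (h01 : s0 ≤ s1) (h1 : s1 < H.T) :
    HasDt s0 s1 (gb H.T t0 r0 a β) (gb' H.T t0 r0 a β) := by
  obtain ⟨S, hS⟩ := F.cov (s1 := s1) ⟨h0.trans h01, h1⟩
  intro t ht x
  have hP : ∀ i, HasDerivAt (fun s => wP H.T t0 r0 a β i s x) (wP' H.T t0 r0 a β i t x) t :=
    fun i => (((bmp_cd.differentiable (by simp)) _).hasDerivAt.comp t (tau_deriv i t)).mul_const _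
  have hc := hS t ⟨h0.trans ht.1, ht.2⟩
  have hW := one_pos.trans_le (F.one_le ⟨h0.trans ht.1, ht.2.trans_lt h1⟩ hc x)
  have d1 := HasDerivAt.fun_sum (u := S) fun i _ => (hP i).mul_const (β i x)
  have d2 := HasDerivAt.fun_sum (u := S) fun i _ => hP i
  have d3 := (d1.div d2 hW.ne').hasDerivWithinAt (s := Icc s0 s1)
  refine (d3.congr (fun s hs => (hS s ⟨h0.trans hs.1, hs.2⟩).gb x) (hc.gb x)).congr_deriv ?_
  rw [hc.gb', hc.gb]
  simp only [mul_sub, Finset.sum_sub_distrib, ← Finset.sum_mul]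
  field_simp

end Crest.Agent.N207.Rad

end
end

-- ▼ part N207/Rad/Main
section

/-!
# Row 207, block P0 (helper89): the glued function is a neck function
-/

set_option autoImplicit false
set_option linter.dupNamespace false
set_option linter.unusedSectionVars false
open Set MeasureTheory Filter Topology
open scoped ContDiff Classical

noncomputable section

namespace Crest.Agent.N207.Rad

/-- the pointwise estimates on the neck -/
structure Est {M : Type*} [MeasurableSpace M] (H : HC M) (t : ℝ) (x : M) (ρ ε : ℝ) (b : M → ℝ)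
    (b' : ℝ) : Prop where
  v : |b x - ρ ^ 2| ≤ ε * ρ ^ 2
  g : |H.gam t b b x - 4 * b x| ≤ ε * ρ ^ 2
  l : |H.lap t b x - 8| ≤ ε
  d : |b'| ≤ ε

theorem est_static {M : Type*} [TopologicalSpace M] [CompactSpace M] [MeasurableSpace M] {H : HC M}
    (A : H.Alg) {t η r ε : ℝ} {z x : M} {β b : M → ℝ} (ht : t ∈ Ioo 0 H.T)
    (L : LocAt H t z η r β) (hη : η ≤ 1 / 100) (hr : 0 < r) (h1 : 3 / 10 * r ≤ H.d t z x)
    (h2 : H.d t z x ≤ 3 * r) (hb : H.S0 b) (hε : ε ≤ 1)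
    (h : Sz H t x (H.d t z x) (fun y => b y - β y) (ε * H.d t z x ^ 2)) :
    |b x - H.d t z x ^ 2| ≤ (11 * ε + 12 * η) * H.d t z x ^ 2 ∧
    |H.gam t b b x - 4 * b x| ≤ (11 * ε + 12 * η) * H.d t z x ^ 2 ∧
    |H.lap t b x - 8| ≤ 11 * ε + 12 * η := by
  obtain ⟨a1, a2, a3, -⟩ := L.mid x (by linarith) (by linarith)
  set ρ := H.d t z x
  have hρ : 0 < ρ := by linarith
  have hρ2 : 0 < ρ ^ 2 := by positivity
  have hη0 : 0 ≤ η := (abs_nonneg _).trans a3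
  have hε0 : 0 ≤ ε := nonneg_of_mul_nonneg_left h.nn hρ2
  have hrr : η * r ^ 2 ≤ 12 * (η * ρ ^ 2) := by
    have : r ^ 2 ≤ 12 * ρ ^ 2 := by nlinarith
    nlinarith
  have hu := h.s0
  obtain ⟨v1, v2⟩ := abs_le.1 h.v
  obtain ⟨b1, b2⟩ := abs_le.1 a1
  obtain ⟨c1, c2⟩ := abs_le.1 a2
  have p1 : 0 ≤ ε * ρ ^ 2 := h.nn
  have p2 : 0 ≤ η * ρ ^ 2 := by positivity
  refine ⟨abs_le.2 ⟨by nlinarith, by nlinarith⟩, ?_, ?_⟩
  · have e : b = fun y => (b y - β y) + β y := by funext y; ring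
    have e2 : H.gam t b b x = H.gam t (fun y => b y - β y) (fun y => b y - β y) x +
        2 * H.gam t (fun y => b y - β y) β x + H.gam t β β x := by
      conv_lhs => rw [e]
      rw [A.gam_add t ht hu L.s0 (A.s0_add hu L.s0), A.gam_add' ht hu L.s0 hu,
        A.gam_add' ht hu L.s0 L.s0, A.gam_symm t ht L.s0 hu]
      ring
    have g1 : √(H.gam t (fun y => b y - β y) (fun y => b y - β y) x) ≤ ε * ρ := by
      refine h.g.trans (le_of_eq ?_); field_simp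
    have g2 : √(H.gam t β β x) ≤ 3 * ρ := by
      rw [Real.sqrt_le_left (by positivity)]
      have : η * ρ ^ 2 ≤ 1 / 100 * ρ ^ 2 := by gcongr
      nlinarith
    have g3 := (A.abs_gam_le ht hu L.s0 x).trans
      (mul_le_mul g1 g2 (Real.sqrt_nonneg _) (by positivity))
    obtain ⟨g4, g5⟩ := abs_le.1 g3
    have g6 := A.gam_nonneg t ht hu x
    have g7 : H.gam t (fun y => b y - β y) (fun y => b y - β y) x ≤ ε * ρ ^ 2 := by
      rw [Real.sqrt_le_left (by positivity)] at g1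
      have : (ε * ρ) ^ 2 = ε * (ε * ρ ^ 2) := by ring
      nlinarith
    rw [e2]
    exact abs_le.2 ⟨by nlinarith, by nlinarith⟩
  · have l1 := h.l
    rw [A.lap_sub ht hb L.s0, mul_div_assoc, div_self hρ2.ne', mul_one] at l1
    obtain ⟨l2, l3⟩ := abs_le.1 l1
    obtain ⟨l4, l5⟩ := abs_le.1 a3
    exact abs_le.2 ⟨by linarith, by linarith⟩

theorem fam_est : ∃ C : ℝ, 1 ≤ C ∧ ∀ {M : Type*} [TopologicalSpace M] [CompactSpace M]
    [MeasurableSpace M] {H : HC M}, H.Alg → H.Evo → H.Dist → HhSub H →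
    ∀ {t0 r0 e : ℝ} {a : ℝ → ℝ} {z : ℝ → M} {β : ℕ × ℕ → M → ℝ}, Fam H t0 r0 (e ^ 2) a z β →
    0 < e → C * e ≤ 1 → ∀ t ∈ Ico t0 H.T, ∀ x, a t ≤ H.d t (z t) x → H.d t (z t) x ≤ 2 * r0 →
    Est H t x (H.d t (z t) x) (C * e) (gb H.T t0 r0 a β t) (gb' H.T t0 r0 a β t x) := by
  obtain ⟨L, hL, hw⟩ := sz_weight.{_}
  obtain ⟨C1, hC1, hd⟩ := sz_diff.{_}
  obtain ⟨K, hK, hb⟩ := bmp_deriv_bdd
  set C2 := 32 * (25 * L * (1 + 25 * L + (25 * L) ^ 2)) * C1 with hC2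
  have hC2p : 0 < C2 := by positivity
  refine ⟨11 * C2 + 12 + 25 * (K * 288 * (C1 + C2)), by nlinarith [mul_pos (by linarith : 0 < K) (by linarith : 0 < C1 + C2)], ?_⟩
  intro M _ _ _ H A Ev D hs t0 r0 e a z β F he hCe t ht x hx1 hx2
  have hKC : 0 < K * 288 * (C1 + C2) := by positivity
  have he1 : e ≤ 1 / 10 := by nlinarith
  have htI := F.mem ht
  have ha := F.sc.pos t ht
  set ρ := H.d t (z t) x with hρd
  have hρ : 0 < ρ := ha.trans_le hx1
  obtain ⟨S, hS⟩ := F.cov1 ht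
  let al : ℕ × ℕ → Prop := fun i => (Val H.T t0 r0 a i ∧ |tau t0 r0 i t| ≤ 2) ∧
    3 / 10 * rj r0 i.1 ≤ ρ ∧ ρ ≤ 3 * rj r0 i.1
  have hN : ((S.filter al).card : ℝ) ≤ 25 := by
    have := card_alive (t0 := t0) (t := t) (ρ := ρ) F.r0_pos (S.filter al) fun i hi =>
      have hi' : al i := (Finset.mem_filter.1 hi).2
      ⟨hi'.1.2, hi'.2⟩
    exact_mod_cast this
  have hdead : ∀ i, ¬ al i → (Val H.T t0 r0 a i ∧ |tau t0 r0 i t| ≤ 2) →
      wS H.T t0 r0 a β i =ᶠ[𝓝 x] fun _ => 0 := by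
    intro i hi hv
    have hc := (D.cont t htI (z t)).continuousAt (x := x)
    have hp := rj_pos F.r0_pos i.1
    rcases lt_or_ge ρ (3 / 10 * rj r0 i.1) with c | c
    · filter_upwards [hc.eventually (gt_mem_nhds c)] with y hy
      by_contra hne
      rcases (F.alive ht hv.1 hv.2 hne).2 with e1 | e1
      · have := e1 t ht hv.2
        rw [rj_succ] at this; linarith
      · linarith
    · have c2 : 3 * rj r0 i.1 < ρ := not_le.1 fun e1 => hi ⟨hv, c, e1⟩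
      filter_upwards [hc.eventually (lt_mem_nhds c2)] with y hy
      by_contra hne
      rcases (F.alive ht hv.1 hv.2 hne).1 with e1 | e1
      · rw [e1, rj_zero] at c2; linarith [F.r0_pos]
      · linarith
  have hPs : ∀ i, H.S0 (wP H.T t0 r0 a β i t) := fun i => A.s0_cmul _ (F.wS_s0 A i)
  obtain ⟨i0, v0, τ0, u0, l0, -⟩ := F.plateau ht x
  have hp0 := rj_pos F.r0_pos i0.1
  have al1 : 3 / 10 * rj r0 i0.1 ≤ ρ := by
    rcases l0 with e1 | e1
    · have := e1 t ht τ0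
      rw [rj_succ] at this; linarith
    · linarith
  have al2 : ρ ≤ 3 * rj r0 i0.1 := by
    rcases u0 with e1 | e1
    · rw [e1, rj_zero]; linarith [F.r0_pos]
    · linarith
  have L0 := F.loc i0 v0 t ht τ0
  have hdiff : ∀ i, al i → Sz H t x ρ (fun y => β i y - β i0 y) (C1 * e * ρ ^ 2) := fun i hi =>
    hd A Ev D hs htI (F.loc i hi.1.1 t ht hi.1.2) L0 he he1 (rj_pos F.r0_pos _) hp0 hi.2.1 hi.2.2
      al1 al2
  have hW1 := F.one_le ht hS
  have key := sz_glue A htI hρ S al (p := fun i => wP H.T t0 r0 a β i t) (β := β) (β0 := β i0)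
    hN (by linarith : 0 ≤ L) (by positivity : 0 ≤ C1 * e * ρ ^ 2) (fun i _ => F.s0 i) (F.s0 i0)
    (fun i _ hi => by
      by_cases hv : Val H.T t0 r0 a i ∧ |tau t0 r0 i t| ≤ 2
      · refine sz_zero A htI (hPs i) ?_
        filter_upwards [hdead i hi hv] with y hy
        rw [wP, hy, mul_zero]
      · exact sz_zero A htI (hPs i) (Eventually.of_forall fun y => (wP_zero hv y).1))
    (fun i _ hi => by
      have s1 := hw A htI (F.loc i hi.1.1 t ht hi.1.2) F.η_le (rj_pos F.r0_pos _) hi.2.1 hi.2.2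
        (i.1 = 0) (Bot H.T t0 r0 a i)
      have s2 := s1.cmul A htI (bmp (tau t0 r0 i t))
      have e1 : wP H.T t0 r0 a β i t = fun y => bmp (tau t0 r0 i t) *
          cW (i.1 = 0) (Bot H.T t0 r0 a i) (β i y / rj r0 i.1 ^ 2) := by
        funext y; rw [wP, wS, if_pos hi.1.1]
      rw [e1]
      refine s2.mono hρ ?_
      rw [abs_of_nonneg (bmp_nonneg _)]
      nlinarith [bmp_le (tau t0 r0 i t)])
    (fun i _ hi => hdiff i hi) (fun y => one_pos.trans_le (hW1 y)) (hW1 x)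
  have eb : (fun y => (∑ i ∈ S, wP H.T t0 r0 a β i t y * β i y) /
      (∑ i ∈ S, wP H.T t0 r0 a β i t y) - β i0 y) = fun y => gb H.T t0 r0 a β t y - β i0 y := by
    funext y; rw [hS.gb]
  rw [eb, show 32 * (25 * L * (1 + 25 * L + (25 * L) ^ 2)) * (C1 * e * ρ ^ 2) = C2 * e * ρ ^ 2 by
    rw [hC2]; ring] at key
  have hbS : H.S0 (gb H.T t0 r0 a β t) :=
    A.sm_s0 (F.gb_sm A ht.1 le_rfl ht.2) t ⟨le_rfl, le_rfl⟩
  obtain ⟨r1, r2, r3⟩ := est_static A htI L0 F.η_le hp0 al1 al2 hbS (ε := C2 * e) (by nlinarith) key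
  have hle : 11 * (C2 * e) + 12 * e ^ 2 ≤ (11 * C2 + 12 + 25 * (K * 288 * (C1 + C2))) * e := by
    nlinarith [mul_pos hKC he]
  refine ⟨r1.trans (by gcongr), r2.trans (by gcongr), r3.trans hle, ?_⟩
  rw [hS.gb', abs_div, abs_of_pos (one_pos.trans_le (hW1 x))]
  refine (div_le_self (abs_nonneg _) (hW1 x)).trans ((Finset.abs_sum_le_sum_abs _ _).trans ?_)
  have hterm : ∀ i ∈ S, |wP' H.T t0 r0 a β i t x * (β i x - gb H.T t0 r0 a β t x)| ≤
      if al i then K * 288 * (C1 + C2) * e else 0 := by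
    intro i _
    by_cases hi : al i
    · rw [if_pos hi, abs_mul, wP', abs_mul, abs_mul, abs_of_nonneg (wS_nonneg i x)]
      have hp := rj_pos F.r0_pos i.1
      have q1 : |β i x - gb H.T t0 r0 a β t x| ≤ (C1 + C2) * e * ρ ^ 2 := by
        obtain ⟨c1, c2⟩ := abs_le.1 (hdiff i hi).v
        obtain ⟨c3, c4⟩ := abs_le.1 key.v
        exact abs_le.2 ⟨by linarith, by linarith⟩
      have q2 : ρ ^ 2 ≤ 9 * rj r0 i.1 ^ 2 := by nlinarith [hi.2.2]
      have q3 := hb (tau t0 r0 i t)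
      have q4 := wS_le (T := H.T) (t0 := t0) (r0 := r0) (a := a) (β := β) i x
      have q5 := wS_nonneg (T := H.T) (t0 := t0) (r0 := r0) (a := a) (β := β) i x
      rw [abs_of_pos (show 0 < 32 / rj r0 i.1 ^ 2 by positivity)]
      calc _ ≤ K * (32 / rj r0 i.1 ^ 2) * 1 * ((C1 + C2) * e * (9 * rj r0 i.1 ^ 2)) := by
            gcongr
            exact q1.trans (by gcongr)
        _ = _ := by field_simp; ring
    · rw [if_neg hi]
      by_cases hv : Val H.T t0 r0 a i ∧ |tau t0 r0 i t| ≤ 2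
      · rw [wP', (hdead i hi hv).eq_of_nhds]; simp
      · rw [(wP_zero hv x).2]; simp
  refine (Finset.sum_le_sum hterm).trans ?_
  rw [← Finset.sum_filter, Finset.sum_const, nsmul_eq_mul]
  have : ((S.filter al).card : ℝ) * (K * 288 * (C1 + C2) * e) ≤ 25 * (K * 288 * (C1 + C2) * e) := by
    gcongr
  nlinarith

/-- the input: static radial functions at every admissible time and scale -/
structure RadIn {M : Type*} [TopologicalSpace M] [MeasurableSpace M] (H : HC M) (t0 r0 η : ℝ)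
    (a : ℝ → ℝ) (z : ℝ → M) : Prop where
  t0_pos : 0 < t0
  r0_pos : 0 < r0
  sc : Sc H.T t0 r0 a
  loc : ∀ s ∈ Ico t0 H.T, ∀ r, a s ≤ r → r ≤ r0 → ∃ β : M → ℝ, H.S0 β ∧ (∀ x, 0 < β x) ∧
    ∀ t ∈ Ico t0 H.T, |t - s| ≤ r ^ 2 → LocAt H t (z t) η r β

/-- the output -/
structure RadOut {M : Type*} [TopologicalSpace M] [CompactSpace M] [MeasurableSpace M] (H : HC M)
    (t0 r0 del : ℝ) (a : ℝ → ℝ) (z : ℝ → M) (b b' : ℝ → M → ℝ) : Prop where
  nk : ∀ s0 s1, t0 ≤ s0 → s0 < s1 → s1 < H.T → NP.Nk H s0 s1 (4 * a s0 ^ 2) (r0 ^ 2) del b b'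
  inn : ∀ t ∈ Ico t0 H.T, ∀ x, H.d t (z t) x ≤ a t → b t x ≤ 2 * a t ^ 2
  out : ∀ t ∈ Ico t0 H.T, ∀ x, 2 * r0 ≤ H.d t (z t) x → 3 * r0 ^ 2 ≤ b t x
  mid : ∀ t ∈ Ico t0 H.T, ∀ x, a t ≤ H.d t (z t) x → H.d t (z t) x ≤ 2 * r0 →
    |b t x - H.d t (z t) x ^ 2| ≤ del * H.d t (z t) x ^ 2

/-- P0 on the scalar calculus -/
theorem rad_main {del : ℝ} (hdel : 0 < del) : ∃ η : ℝ, 0 < η ∧ ∀ {M : Type*} [TopologicalSpace M]
    [CompactSpace M] [MeasurableSpace M] {H : HC M}, H.Alg → H.Evo → H.Dist → HhSub H →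
    ∀ {t0 r0 : ℝ} {a : ℝ → ℝ} {z : ℝ → M}, RadIn H t0 r0 η a z →
    ∃ b b' : ℝ → M → ℝ, RadOut H t0 r0 del a z b b' := by
  obtain ⟨C, hC, hest⟩ := fam_est.{_}
  set e := min del (1 / 10) / C with hed
  have hm : 0 < min del (1 / 10) := lt_min hdel (by norm_num)
  have he : 0 < e := by positivity
  have hCe : C * e = min del (1 / 10) := by rw [hed]; field_simp
  have hCe1 : C * e ≤ del := hCe ▸ min_le_left _ _
  have hCe2 : C * e ≤ 1 / 10 := hCe ▸ min_le_right _ _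
  have he1 : e ≤ 1 / 10 := by nlinarith
  refine ⟨e ^ 2, by positivity, ?_⟩
  intro M _ _ _ H A Ev D hs t0 r0 a z R
  have h1 : ∀ i : ℕ × ℕ, ∃ β : M → ℝ, H.S0 β ∧ (∀ x, 0 < β x) ∧ (Val H.T t0 r0 a i →
      ∀ t ∈ Ico t0 H.T, |tau t0 r0 i t| ≤ 2 → LocAt H t (z t) (e ^ 2) (rj r0 i.1) β) := by
    intro i
    by_cases hv : Val H.T t0 r0 a i
    · obtain ⟨s, hsI, has, hw⟩ := hv
      obtain ⟨β, b1, b2, b3⟩ := R.loc s hsI _ has (rj_le_r0 R.r0_pos i.1)
      exact ⟨β, b1, b2, fun _ t ht hτ => b3 t ht (hw t hτ)⟩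
    · exact ⟨fun _ => 1, A.s0_const 1, fun _ => one_pos, fun h => (hv h).elim⟩
  choose β b1 b2 b3 using h1
  have F : Fam H t0 r0 (e ^ 2) a z β := ⟨R.t0_pos, R.r0_pos, by nlinarith, R.sc, b1, b2, b3⟩
  have hE := hest A Ev D hs F he (by linarith)
  have hreg : ∀ s0, t0 ≤ s0 → ∀ t ∈ Ico s0 H.T, ∀ x, 4 * a s0 ^ 2 ≤ gb H.T t0 r0 a β t x →
      gb H.T t0 r0 a β t x ≤ r0 ^ 2 → Est H t x (H.d t (z t) x) (C * e) (gb H.T t0 r0 a β t)
        (gb' H.T t0 r0 a β t x) := by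
    intro s0 h0 t ht x c1 c2
    have ht' : t ∈ Ico t0 H.T := ⟨h0.trans ht.1, ht.2⟩
    have ha := R.sc.pos t ht'
    have ha2 := R.sc.anti ⟨h0, ht.1.trans_lt ht.2⟩ ht' ht.1
    refine hE t ht' x (le_of_not_ge fun c => ?_) (le_of_not_ge fun c => ?_)
    · have := F.gb_inn ht' (HC.Alg.d_nonneg D (F.mem ht') _ _) c
      nlinarith
    · have := F.gb_out ht' c
      nlinarith [R.r0_pos]
  refine ⟨gb H.T t0 r0 a β, gb' H.T t0 r0 a β, fun s0 s1 h0 h01 h1 => ?_,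
    fun t ht x hx => F.gb_inn ht (HC.Alg.d_nonneg D (F.mem ht) _ _) hx, fun t ht x hx => F.gb_out ht hx,
    fun t ht x c1 c2 => (hE t ht x c1 c2).v.trans (by gcongr)⟩
  refine ⟨⟨R.t0_pos.trans_le h0, h01, h1⟩, F.gb_sm A h0 h01.le h1, F.gb_dt h0 h01.le h1,
    fun t ht x => F.gb_pos ⟨h0.trans ht.1, ht.2.trans_lt h1⟩ x, fun t ht x c1 c2 => ?_,
    fun t ht x c1 c2 => (hreg s0 h0 t ⟨ht.1, ht.2.trans_lt h1⟩ x c1 c2).l.trans hCe1,
    fun t ht x c1 c2 => (hreg s0 h0 t ⟨ht.1, ht.2.trans_lt h1⟩ x c1 c2).d.trans hCe1⟩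
  have E := hreg s0 h0 t ⟨ht.1, ht.2.trans_lt h1⟩ x c1 c2
  have v := (abs_le.1 E.v).1
  have q : H.d t (z t) x ^ 2 ≤ 2 * gb H.T t0 r0 a β t x := by nlinarith [sq_nonneg (H.d t (z t) x)]
  have q0 := F.gb_pos ⟨h0.trans ht.1, ht.2.trans_lt h1⟩ x
  refine E.g.trans ?_
  calc C * e * H.d t (z t) x ^ 2 ≤ del * (2 * gb H.T t0 r0 a β t x) := by gcongr
    _ ≤ _ := by nlinarith

end Crest.Agent.N207.Rad

end
end

-- ▼ part N207/Rad/Top
section

/-!
# Row 207, block P0 (helper89): `NP.RAD`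
-/

set_option autoImplicit false
set_option linter.unusedSectionVars false

open scoped ContDiff Topology Manifold Classical
open Set Filter MeasureTheory
open Crest.GeometryTopology.CoordMetric Crest.GeometryTopology.ChartCurvature
  Crest.GeometryTopology.MetricFamily

noncomputable section

namespace Crest.Agent.N207.Rad

open Sk

variable {M : Type*} [TopologicalSpace M] [ChartedSpace E4 M] [IsManifold 𝓘(ℝ, E4) ∞ M]
  [T3Space M] [ConnectedSpace M] [MeasurableSpace M] [BorelSpace M] [CompactSpace M]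

/-- the index of the interval that contains `t` -/
def idx (τ : TopD M) (t : ℝ) : ℕ := if h : ∃ n, t < τ.t (n + 1) then Nat.find h else 0

/-- a centre -/
def cen (τ : TopD M) (t : ℝ) : M :=
  if h : (τ.N t).In.Nonempty then h.choose else (τ.N t).Ψ 0

variable {F : Flow M} {τ : TopD M} {m : ℕ} {η V : ℝ} {Cs : ℕ → ℝ} (h : τ.Ok F m η Cs V)
include h

theorem lam_pos (n : ℕ) : 0 < τ.lam n := div_pos h.l0_pos (pow_pos (by linarith [h.K_ge]) n)

theorem lam_succ (n : ℕ) : τ.lam n = τ.K * τ.lam (n + 1) := by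
  have : τ.K ≠ 0 := by linarith [h.K_ge]
  unfold TopD.lam; rw [pow_succ]; field_simp

theorem lam_anti : Antitone τ.lam := antitone_nat_of_succ_le fun n => by
  rw [lam_succ h n]; nlinarith [lam_pos h (n + 1), h.K_ge]

theorem t_mono : StrictMono τ.t := strictMono_nat_of_lt_succ fun n => by
  have := h.d_ge n
  have := mul_pos h.c_pos (lam_pos h n)
  unfold TopD.d at *; linarith

theorem lam_small {ε : ℝ} (hε : 0 < ε) : ∃ n, τ.lam n ≤ ε := by
  obtain ⟨n, hn⟩ := pow_unbounded_of_one_lt (τ.l0 / ε) (show 1 < τ.K by linarith [h.K_ge])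
  refine ⟨n, ?_⟩
  rw [TopD.lam, div_le_iff₀ (pow_pos (by linarith [h.K_ge]) n)]
  rw [div_lt_iff₀ hε] at hn
  linarith

theorem idx_mem {t : ℝ} (h0 : τ.t 0 ≤ t) (h1 : t < F.T) : t ∈ τ.I (idx τ t) := by
  have e : ∃ n, t < τ.t (n + 1) :=
    ((tendsto_add_atTop_iff_nat 1).2 h.lim).eventually (lt_mem_nhds h1) |>.exists
  rw [idx, dif_pos e]
  refine ⟨?_, Nat.find_spec e⟩
  rcases hn : Nat.find e with _ | k
  · exact h0
  · exact not_lt.1 (Nat.find_min e (hn ▸ Nat.lt_succ_self k))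

theorem I_le {t t' : ℝ} {n n' : ℕ} (ht : t ∈ τ.I n) (ht' : t' ∈ τ.I n') (htt : t ≤ t') : n ≤ n' :=
  Nat.lt_succ_iff.1 ((t_mono h).lt_iff_lt.1 (ht.1.trans_lt (htt.trans_lt ht'.2)))

theorem I_sub {t : ℝ} {n : ℕ} (ht : t ∈ τ.I n) : τ.t 0 ≤ t ∧ t < F.T :=
  ⟨((t_mono h).monotone (Nat.zero_le n)).trans ht.1, ht.2.trans (h.lt _)⟩

theorem idx_eq {t : ℝ} {n : ℕ} (ht : t ∈ τ.I n) : idx τ t = n := by
  have := idx_mem h (I_sub h ht).1 (I_sub h ht).2
  exact le_antisymm (I_le h this ht le_rfl) (I_le h ht this le_rfl)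

theorem cen_mem {t : ℝ} {n : ℕ} (ht : t ∈ τ.I n) : cen τ t ∈ (τ.N t).In := by
  have := (h.top n t ht).ne
  rw [cen, dif_pos this]; exact this.choose_spec

omit h in
theorem wt_arith {l R c d e η s r y : ℝ} (he : 0 < e) (hR : 0 < R) (hc : 0 < c) (hs : 0 < s)
    (hη : η ≤ 1) (hd : 0 ≤ d) (p0 : 9 / e ^ 2 * l ≤ s) (p3 : 8 * r ≤ e ^ 2 / 9 * R)
    (p6 : d ≤ e / 3 * (c * s)) (y1 : s < y) (y2 : y < 8 * r) :
    η * (√(l / y) + √(y / R) + d / y / c) ≤ e := by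
  have hy : 0 < y := hs.trans y1
  have w1 : √(l / y) ≤ e / 3 := by
    rw [Real.sqrt_le_left (by positivity), div_le_iff₀ hy]
    have := p0.trans y1.le
    rw [div_mul_eq_mul_div, div_le_iff₀ (by positivity)] at this
    linarith
  have w2 : √(y / R) ≤ e / 3 := by
    rw [Real.sqrt_le_left (by positivity), div_le_iff₀ hR]
    linarith
  have w3 : d / y / c ≤ e / 3 := by
    rw [div_div, div_le_iff₀ (by positivity)]
    refine p6.trans (mul_le_mul_of_nonneg_left ?_ (by positivity))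
    rw [mul_comm]; exact mul_le_mul_of_nonneg_right y1.le hc.le
  have w4 : 0 ≤ √(l / y) + √(y / R) + d / y / c := by positivity
  exact (mul_le_mul_of_nonneg_right hη w4).trans (by linarith)

omit h in
theorem par_arith {e θ c r R l K : ℝ} (he : 0 < e) (he1 : e ≤ 1 / 10000) (hθ : 0 < θ)
    (hθe : θ ≤ e) (hc : 0 < c) (hR : 0 < R) (hR1 : R ≤ 1) (hl : 0 < l) (hr : 0 < r) (hK : 4 ≤ K)
    (q2 : r ≤ e ^ 2 / 72 * R) (q3 : r ≤ e * θ * c / 3) (p0 : (9 / e ^ 2 + K ^ 2) * l ≤ θ * r) :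
    K ^ 2 * l ≤ θ * r ∧ 9 / e ^ 2 * l ≤ θ * r ∧ l < θ * r ∧ 8 * r ≤ e ^ 2 / 9 * R ∧ 8 * r ≤ R ∧
      θ * r ≤ r / 10000 ∧ r ^ 2 ≤ e / 3 * (c * (θ * r)) ∧ r ^ 2 ≤ c * (θ * r) ∧ r ^ 2 ≤ 1 := by
  have h9 : 0 < 9 / e ^ 2 * l := by positivity
  have hK2 : 16 ≤ K ^ 2 := by nlinarith
  have hK3 := mul_le_mul_of_nonneg_right hK2 hl.le
  have e2 : e ^ 2 ≤ 1 := by nlinarith
  have e3 := mul_le_mul_of_nonneg_right e2 hR.le
  have p6 : r ^ 2 ≤ e / 3 * (c * (θ * r)) := by nlinarith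
  have p7 : 0 ≤ c * (θ * r) := by positivity
  refine ⟨by linarith, by linarith, by linarith, by linarith, by linarith, by nlinarith, p6,
    by nlinarith, by nlinarith⟩

/-- the restricted necks are rough for a parabolic time and contain the centres -/
theorem exists_sand (hB : Base F) (hD : DIST F) (hm : 1 ≤ m) (hη : η ≤ 1) {e : ℝ} (he : 0 < e)
    (he1 : e ≤ 1 / 10000) : ∃ (θ A r0 K : ℝ) (n0 : ℕ), 0 < θ ∧ 1 ≤ A ∧ 0 < r0 ∧ 1 ≤ K ∧
      K * θ = e ∧ A * τ.lam n0 ≤ r0 ∧ ∀ n, n0 ≤ n → ∀ u ∈ τ.I n, ∀ r, A * τ.lam n ≤ r → r ≤ r0 →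
        τ.lam n < θ * r ∧ 8 * r ≤ τ.R ∧ ((τ.N u).res (θ * r) (8 * r)).Top ∧
        ∀ t ∈ Ico (τ.t n0) F.T, |t - u| ≤ r ^ 2 →
          Sand (F.m t) ((τ.N u).res (θ * r) (8 * r)) (cen τ t) e K ∧
          ∀ x ∈ shell (θ * r) (8 * r), JG 1 ((F.m t).pm (τ.N u).Ψ) x ‖x‖ e := by
  obtain ⟨KR, hKR⟩ := hB.ok.evo.R_bd
  obtain ⟨K, r1, hK, hr1, hd⟩ := hD (Real.exp |KR| * (max V 0 * 16))
  have hKτ := h.K_ge
  have hc := h.c_pos
  have hc1 := h.c_le
  have hR : 0 < τ.R := lt_of_lt_of_le (by have := h.l0_pos; positivity) h.l0_le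
  obtain ⟨θ, hθ, hKθ⟩ : ∃ θ : ℝ, 0 < θ ∧ K * θ = e := ⟨e / K, by positivity, by field_simp⟩
  have hθe : θ ≤ e := by nlinarith
  obtain ⟨A, hA, hAθ⟩ : ∃ A : ℝ, 1 ≤ A ∧ A * θ = 9 / e ^ 2 + τ.K ^ 2 := by
    refine ⟨(9 / e ^ 2 + τ.K ^ 2) / θ, ?_, by field_simp⟩
    have h9 : 0 < 9 / e ^ 2 := by positivity
    rw [le_div_iff₀ hθ]; nlinarith
  obtain ⟨r0, hr0, q1, q2, q3⟩ : ∃ r0 : ℝ, 0 < r0 ∧ r0 ≤ r1 / 8 ∧ r0 ≤ e ^ 2 / 72 * τ.R ∧
      r0 ≤ e * θ * τ.c / 3 :=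
    ⟨min (min (r1 / 8) (e ^ 2 / 72 * τ.R)) (e * θ * τ.c / 3), by positivity,
      (min_le_left _ _).trans (min_le_left _ _), (min_le_left _ _).trans (min_le_right _ _),
      min_le_right _ _⟩
  obtain ⟨n0, hn0⟩ := lam_small h (lt_min (div_pos hr0 (by linarith : 0 < A))
    (show 0 < θ ^ 2 * τ.c / τ.K ^ 3 by positivity))
  refine ⟨θ, A, r0, K, n0, hθ, hA, hr0, hK, hKθ, ?_, fun n hn u hu r h1 h2 => ?_⟩
  · have := hn0.trans (min_le_left _ _)
    rwa [le_div_iff₀ (by linarith), mul_comm] at this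
  have hl := lam_pos h n
  have hr : 0 < r := lt_of_lt_of_le (by positivity) h1
  have p0 : (9 / e ^ 2 + τ.K ^ 2) * τ.lam n ≤ θ * r := by
    rw [← hAθ, mul_right_comm, mul_comm]; exact mul_le_mul_of_nonneg_left h1 hθ.le
  obtain ⟨p1, p1', p2, p3, p4, p5, p6, p8, p9⟩ := par_arith he he1 hθ hθe hc hR h.R_le hl hr hKτ
    (h2.trans q2) (h2.trans q3) p0
  have hθr := mul_pos hθ hr
  have hN := h.top n u hu
  have hT : ((τ.N u).res (θ * r) (8 * r)).Top :=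
    res_top hN (by rw [h.a_eq n u hu]; exact p2) (by linarith) (by rw [h.b_eq n u hu]; exact p4)
  refine ⟨p2, p4, hT, fun t ht htu => ?_⟩
  have ht0 : τ.t 0 ≤ t := ((t_mono h).monotone (Nat.zero_le _)).trans ht.1
  have htI := idx_mem h ht0 ht.2
  have p7 : |t - u| ≤ τ.c * (θ * r) := htu.trans p8
  have hJ : ∀ x ∈ shell (θ * r) (8 * r), JG m ((F.m t).pm (τ.N u).Ψ) x ‖x‖ e := by
    intro x hx
    refine jg_mono (h.far n u hu (θ * r) p2 (by linarith) t ht0 ht.2 p7 x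
      ⟨hx.1, hx.2.trans_le p4⟩).1 le_rfl ?_
    exact wt_arith he hR hc hθr hη (abs_nonneg _) p1' p3 (htu.trans p6) hx.1 hx.2
  refine ⟨?_, fun x hx => jg_mono (hJ x hx) hm le_rfl⟩
  have hu0 := I_sub h hu
  have hTp := F.hT
  have hvol : (F.m t).vol.real ((τ.N u).res (θ * r) (8 * r)).In ≤
      Real.exp |KR| * (max V 0 * 16) * (θ * r) ^ 4 := by
    have uI : u ∈ Ioo 0 F.hc.T := ⟨by linarith [h.t0, hu0.1], hu0.2⟩
    have tI : t ∈ Ioo 0 F.hc.T := ⟨by linarith [h.t0], ht.2⟩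
    have v1 := h.vol n u hu u le_rfl (by linarith [mul_pos hc hl]) hu0.2 (2 * (θ * r))
      ⟨by linarith, by linarith⟩
    have v2 := hB.ok.int.vol_le (K := |KR|) (fun s hs x => (hKR s hs x).trans (le_abs_self _))
      u uI t tI ((τ.N u).Om (2 * (θ * r)))
    have := hB.ok.int.fin u uI
    have := hB.ok.int.fin t tI
    have v3 : (F.m t).vol.real ((τ.N u).Om (2 * (θ * r))) ≤
        Real.exp (|KR| * |t - u|) * (F.m u).vol.real ((τ.N u).Om (2 * (θ * r))) := by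
      have := ENNReal.toReal_mono (by
        rw [Measure.smul_apply]
        exact ENNReal.mul_ne_top ENNReal.ofReal_ne_top (measure_ne_top _ _)) v2
      rwa [Measure.smul_apply, smul_eq_mul, ENNReal.toReal_mul,
        ENNReal.toReal_ofReal (Real.exp_pos _).le] at this
    have v4 : Real.exp (|KR| * |t - u|) ≤ Real.exp |KR| := by
      exact Real.exp_le_exp.2 (mul_le_of_le_one_right (abs_nonneg KR) (htu.trans p9))
    have v5 : (F.m t).vol.real ((τ.N u).res (θ * r) (8 * r)).In ≤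
        (F.m t).vol.real ((τ.N u).Om (2 * (θ * r))) :=
      measureReal_mono (μ := F.hc.vol t) (res_in_sub (by linarith))
    calc _ ≤ Real.exp |KR| * (max V 0 * (2 * (θ * r)) ^ 4) :=
          v5.trans (v3.trans (mul_le_mul v4 (v1.trans (by gcongr; exact le_max_left _ _))
            measureReal_nonneg (Real.exp_pos _).le))
      _ = _ := by ring
  have hK' : τ.K * τ.lam (idx τ t) ≤ θ * r := by
    rcases le_or_gt n (idx τ t + 1) with c | c
    · have := lam_anti h c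
      rw [lam_succ h (idx τ t), ← mul_assoc, ← sq]
      exact (mul_le_mul_of_nonneg_left this (sq_nonneg _)).trans p1
    · have hn0' : n0 ≤ idx τ t := I_le h ⟨le_rfl, t_mono h (Nat.lt_succ_self _)⟩ htI ht.1
      have c1 := (lam_anti h hn0').trans (hn0.trans (min_le_right _ _))
      have c2 := h.d_ge (idx τ t + 1)
      have c3 : τ.t (idx τ t + 1 + 1) ≤ u := ((t_mono h).monotone c).trans hu.1
      have c4 : τ.c * τ.lam (idx τ t + 1) ≤ r ^ 2 := by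
        have := (abs_le.1 htu).1
        have := htI.2
        unfold TopD.d at c2; linarith
      have c5 := lam_pos h (idx τ t + 1)
      rw [le_div_iff₀ (by positivity), lam_succ h (idx τ t)] at c1
      rw [lam_succ h (idx τ t)]
      refine abs_le_of_sq_le_sq' ?_ (by positivity) |>.2
      calc (τ.K * (τ.K * τ.lam (idx τ t + 1))) ^ 2
          = (τ.K * τ.lam (idx τ t + 1) * τ.K ^ 3) * τ.lam (idx τ t + 1) := by ring
        _ ≤ (θ ^ 2 * τ.c) * τ.lam (idx τ t + 1) := by gcongr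
        _ = θ ^ 2 * (τ.c * τ.lam (idx τ t + 1)) := by ring
        _ ≤ θ ^ 2 * r ^ 2 := by gcongr
        _ = _ := by ring
  have hz : cen τ t ∈ ((τ.N u).res (θ * r) (8 * r)).In :=
    om_sub_res_in ((h.cmp _ n t htI u hu (θ * r) hK' (le_trans (mul_le_mul_of_nonneg_right
      (le_self_pow₀ (by linarith) two_ne_zero) hl.le) p1) p7 (θ * r)
      ⟨le_rfl, by linarith⟩).1 (Or.inl (cen_mem h htI)))
  exact hd t ⟨h.t0.trans ht0, ht.2⟩ _ e hT ⟨fun x hx => jg_mono (hJ x hx) (Nat.zero_le _) le_rfl,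
    hvol⟩ (by linarith) (show 8 * r ≤ r1 by linarith) (show 2 * (θ * r) ≤ 8 * r by linarith) _ hz

omit h in
/-- block P0 -/
theorem rad (hB : Base F) (hD : DIST F) : NP.RAD F := by
  refine ⟨1, 1, one_pos, fun m η Cs V τ hm hη h δ hδ => ?_⟩
  obtain ⟨η1, hη1, hmain⟩ := rad_main.{_} (lt_min hδ (show (0 : ℝ) < 1 / 10 by norm_num))
  set e := min (η1 / 12800) (1 / 10000) with hed
  have he : 0 < e := lt_min (by positivity) (by norm_num)
  have he1 : e ≤ 1 / 10000 := min_le_right _ _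
  have he2 : 12800 * e ≤ η1 := by linarith [min_le_left (η1 / 12800) (1 / 10000)]
  obtain ⟨θ, A, r0, K, n0, hθ, hA, hr0, hK, hKθ, hn0, hs⟩ := exists_sand h hB hD hm hη he he1
  have hI : ∀ t ∈ Ico (τ.t n0) F.T, t ∈ τ.I (idx τ t) ∧ n0 ≤ idx τ t := fun t ht =>
    have := idx_mem h (((t_mono h).monotone (Nat.zero_le _)).trans ht.1) ht.2
    ⟨this, I_le h ⟨le_rfl, t_mono h (Nat.lt_succ_self _)⟩ this ht.1⟩
  have hA0 : 0 < A := by linarith
  have R : RadIn F.hc (τ.t n0) r0 η1 (fun t => A * τ.lam (idx τ t)) (cen τ) := by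
    refine ⟨by linarith [h.t0, F.hT, (t_mono h).monotone (Nat.zero_le n0)], hr0,
      ⟨fun t _ => mul_pos hA0 (lam_pos h _), fun t ht t' ht' c => ?_, fun t ht => ?_⟩,
      fun u hu r h1 h2 => ?_⟩
    · exact mul_le_mul_of_nonneg_left (lam_anti h (I_le h (hI t ht).1 (hI t' ht').1 c)) hA0.le
    · exact (mul_le_mul_of_nonneg_left (lam_anti h (hI t ht).2) hA0.le).trans hn0
    · obtain ⟨-, -, c3, c4⟩ := hs _ (hI u hu).2 u (hI u hu).1 r h1 h2
      have hr : 0 < r := (mul_pos hA0 (lam_pos h _)).trans_le h1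
      have ha : K * ((τ.N u).res (θ * r) (8 * r)).a ≤ e * r := by
        change K * (θ * r) ≤ _; rw [← mul_assoc, hKθ]
      have hθ1 : θ ≤ 1 / 10000 := by nlinarith
      refine ⟨radB ((τ.N u).res (θ * r) (8 * r)) r, radB_sm c3 hr (show θ * r < r / 7 by nlinarith)
        (show 7 * r < 8 * r by linarith), radB_pos c3 hr, fun t ht htu => ?_⟩
      exact (locAt_of_sand F c3 hr rfl he1 he hK ha (c4 t ht htu).1 (c4 t ht htu).2).mono he2
  obtain ⟨b, b', O⟩ := hmain hB.ok.alg hB.ok.evo hB.ok.dist (hhSub F) R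
  have hmem : ∀ n, ∀ s ∈ τ.I (n0 + n), s ∈ Ico (τ.t n0) F.T := fun n s hs' =>
    ⟨((t_mono h).monotone (Nat.le_add_right _ _)).trans hs'.1, (I_sub h hs').2⟩
  have hfact : ∀ n, ∀ s ∈ τ.I (n0 + n), ∀ r, A * τ.lam (n0 + n) ≤ r → r ≤ r0 →
      shell (θ * r) (8 * r) ⊆ shell (τ.lam (n0 + n)) τ.R ∧ θ * r < r ∧
      (∀ p, r / 4 ≤ F.hc.d s (cen τ s) p → F.hc.d s (cen τ s) p ≤ 4 * r →
        ∃ x ∈ shell (θ * r) (8 * r), (τ.N s).Ψ x = p) ∧
      ∀ x ∈ shell (θ * r) (8 * r), |F.hc.d s (cen τ s) ((τ.N s).Ψ x) - ‖x‖| ≤ r / 100 := by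
    intro n s hs' r h1 h2
    obtain ⟨c1, c2, c3, c4⟩ := hs _ (Nat.le_add_right _ _) s hs' r h1 h2
    have hr : 0 < r := (mul_pos hA0 (lam_pos h _)).trans_le h1
    obtain ⟨f1, f2, f3⟩ := (c4 s (hmem n s hs') (by simp [sq_nonneg])).1.facts c3 hr rfl he1 he hK
      (by change K * (θ * r) ≤ _; rw [← mul_assoc, hKθ])
    have hθ1 : θ ≤ 1 / 10000 := by nlinarith
    refine ⟨fun x hx => ⟨c1.trans hx.1, hx.2.trans_le c2⟩, by nlinarith, fun p p1 p2 => ?_,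
      fun x hx => (f3 x hx).trans (by nlinarith)⟩
    rcases cases_nk ((τ.N s).res (θ * r) (8 * r)) p with c | c | c
    · exact absurd (f1 p c) (not_lt.2 p1)
    · exact c
    · exact absurd (f2 p c) (not_lt.2 p2)
  have hcmp : ∀ {d y w r : ℝ}, 0 < r → r ≤ d → |d - y| ≤ r / 100 →
      |w - d ^ 2| ≤ min δ (1 / 10) * d ^ 2 → y ^ 2 / 2 ≤ w ∧ w ≤ 2 * y ^ 2 := by
    intro d y w r hr h1 h2 h3
    obtain ⟨c1, c2⟩ := abs_le.1 h2
    obtain ⟨c3, c4⟩ := abs_le.1 (h3.trans (mul_le_mul_of_nonneg_right (min_le_right _ _)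
      (sq_nonneg d)))
    constructor <;> nlinarith
  refine ⟨2 * A, r0, n0, b, fun _ => b', by linarith, hr0, fun n => ?_, fun n s hs' p p1 p2 => ?_,
    fun n s hs' x x1 x2 => ?_⟩
  · have := O.nk (τ.t (n0 + n)) (τ.t (n0 + n + 1)) ((t_mono h).monotone (Nat.le_add_right _ _))
      (t_mono h (Nat.lt_succ_self _)) (h.lt _)
    rw [idx_eq h (n := n0 + n) ⟨le_rfl, t_mono h (Nat.lt_succ_self _)⟩] at this
    exact this.mono (le_of_eq (by ring)) le_rfl (min_le_left _ _)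
  · have hs2 := hmem n s hs'
    have ha := mul_pos hA0 (lam_pos h (n0 + n))
    have d1 : A * τ.lam (n0 + n) ≤ F.hc.d s (cen τ s) p := le_of_not_ge fun c => by
      have := O.inn s hs2 p (by rw [idx_eq h hs']; exact c)
      rw [idx_eq h hs'] at this
      nlinarith
    have d2 : F.hc.d s (cen τ s) p ≤ 2 * r0 := le_of_not_ge fun c => by
      have := O.out s hs2 p c
      nlinarith
    have d3 := O.mid s hs2 p (by rw [idx_eq h hs']; exact d1) d2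
    have a0 : A * τ.lam (n0 + n) ≤ r0 :=
      (mul_le_mul_of_nonneg_left (lam_anti h (Nat.le_add_right _ _)) hA0.le).trans hn0
    obtain ⟨g1, -, g3, g4⟩ := hfact n s hs' (max (A * τ.lam (n0 + n)) (F.hc.d s (cen τ s) p / 2))
      (le_max_left _ _) (max_le a0 (by linarith))
    have m1 : max (A * τ.lam (n0 + n)) (F.hc.d s (cen τ s) p / 2) ≤ F.hc.d s (cen τ s) p :=
      max_le d1 (by linarith)
    have m2 := le_max_right (A * τ.lam (n0 + n)) (F.hc.d s (cen τ s) p / 2)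
    obtain ⟨x, hx, rfl⟩ := g3 p (by linarith) (by linarith)
    exact ⟨x, g1 hx, rfl, hcmp (ha.trans_le (le_max_left _ _)) m1 (g4 x hx) d3⟩
  · have hs2 := hmem n s hs'
    have ha := mul_pos hA0 (lam_pos h (n0 + n))
    obtain ⟨-, g2, -, g4⟩ := hfact n s hs' (‖x‖ / 2) (by linarith) (by linarith)
    have g5 := g4 x ⟨by linarith, by linarith⟩
    obtain ⟨c1, c2⟩ := abs_le.1 g5
    exact hcmp (r := ‖x‖ / 2) (by linarith) (by linarith) g5
      (O.mid s hs2 _ (by rw [idx_eq h hs']; linarith) (by linarith))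

end Crest.Agent.N207.Rad

end
end

-- ▼ part N207/U/Curv

/-!
# Row 207 (helper58): the leaves `NP.CURV` and `T.CURV`
-/

set_option autoImplicit false
set_option linter.unusedSectionVars false

open Set Filter Topology
open scoped ContDiff BigOperators Manifold
open Crest.GeometryTopology.CoordMetric Crest.GeometryTopology.ChartCurvature
  Crest.GeometryTopology.MetricFamily

noncomputable section

namespace Crest.Agent.N207.U

open Sk

theorem npCurv : NP.CURV := by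
  obtain ⟨C, hC, h⟩ := curv_jg 0
  refine ⟨C, 1 / 8, hC, by norm_num, fun G U x s ε a b c d e => (h G U x s ε a b c d e 0 le_rfl).1,
    fun k Cs => ?_⟩
  obtain ⟨D, -, h2⟩ := curv_lin k Cs 2
  refine ⟨D * 2, fun G U x s a b c d e => ?_⟩
  have := (h2 G U x s 2 a b c zero_le_two le_rfl d (fun j _ => e j) k le_rfl).2
  rw [le_div_iff₀ (by positivity)] at this
  linarith


end Crest.Agent.N207.U

end
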