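import Crest.Agent.N207.U.PB
import Crest.Agent.N207.A.Co3

/-!
# Row 207 (helper58): uniform pointwise bounds for the geometry of a family of metrics

`MW x s m φ G`: the jets of order `≤ m` of `G i - δ` at `x i`, at scale `s i`, are `O(φ i)`,
`φ` and the inverse metrics are bounded.
-/

set_option autoImplicit false
set_option linter.unusedSectionVars false

open Set Filter Topology
open scoped ContDiff BigOperators
open Crest.GeometryTopology.CoordMetric Crest.GeometryTopology.ChartCurvature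
  Crest.GeometryTopology.MetricFamily

noncomputable section

namespace Crest.Agent.N207.U

variable {n : ℕ} {ι : Type*}

/-- a family of metric germs with uniformly controlled jets -/
structure MW (x : ι → En n) (s : ι → ℝ) (m : ℕ) (φ : ι → ℝ) (G : ι → MetricField n) : Prop where
  riem : ∀ i, ∃ U, IsRiemannianOn (G i) U ∧ x i ∈ U
  pos : ∀ i, 0 < s i
  inv : ∃ C, 0 ≤ C ∧ ∀ i a b, |(G i (x i))⁻¹ a b| ≤ C
  nn : ∀ i, 0 ≤ φ i
  bd : ∃ K, 0 ≤ K ∧ ∀ i, φ i ≤ K
  dv : ∀ a b, PB x s m φ fun i y => G i y a b - (1 : Matrix (Fin n) (Fin n) ℝ) a b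

/-- all components of a family of tensors -/
def PT (x : ι → En n) (s : ι → ℝ) (m : ℕ) (ψ : ι → ℝ) {k : ℕ} (T : ι → Tn n k) : Prop :=
  ∀ I, PB x s m ψ fun i y => T i y I

variable {x : ι → En n} {s φ ψ χ : ι → ℝ} {m k : ℕ} {G : ι → MetricField n}

/-- entries of the inverse of a matrix close to the identity -/
theorem abs_inv_le {A : Matrix (Fin n) (Fin n) ℝ} (hA : IsUnit A.det) {ε : ℝ}
    (hε : n * ε ≤ 1 / 2) (h : ∀ a b, |A a b - (1 : Matrix (Fin n) (Fin n) ℝ) a b| ≤ ε)
    (a b : Fin n) : |A⁻¹ a b| ≤ 2 := by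
  obtain ⟨p, -, hp⟩ := Finset.exists_max_image (Finset.univ : Finset (Fin n × Fin n))
    (fun p => |A⁻¹ p.1 p.2|) ⟨(a, b), Finset.mem_univ _⟩
  have h1 : A⁻¹ = 1 - A⁻¹ * (A - 1) := by
    rw [Matrix.mul_sub, Matrix.nonsing_inv_mul A hA, Matrix.mul_one]; abel
  have h2 : A⁻¹ p.1 p.2 = (1 : Matrix (Fin n) (Fin n) ℝ) p.1 p.2 -
      ∑ c, A⁻¹ p.1 c * (A c p.2 - (1 : Matrix (Fin n) (Fin n) ℝ) c p.2) := by
    conv_lhs => rw [h1]
    simp only [Matrix.sub_apply, Matrix.mul_apply]
  have h3 : |(1 : Matrix (Fin n) (Fin n) ℝ) p.1 p.2| ≤ 1 := by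
    rw [Matrix.one_apply]; split_ifs <;> simp
  have h4 : |∑ c, A⁻¹ p.1 c * (A c p.2 - (1 : Matrix (Fin n) (Fin n) ℝ) c p.2)| ≤
      n * (|A⁻¹ p.1 p.2| * ε) := by
    refine (Finset.abs_sum_le_sum_abs _ _).trans ((Finset.sum_le_sum
      (g := fun _ => |A⁻¹ p.1 p.2| * ε) fun c _ => ?_).trans_eq (by simp))
    rw [abs_mul]
    exact mul_le_mul (hp (p.1, c) (Finset.mem_univ _)) (h _ _) (abs_nonneg _) (abs_nonneg _)
  have h5 : |A⁻¹ p.1 p.2| ≤ 1 + n * (|A⁻¹ p.1 p.2| * ε) := by
    conv_lhs => rw [h2]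
    exact (abs_sub _ _).trans (add_le_add h3 h4)
  have h6 := hp (a, b) (Finset.mem_univ _)
  nlinarith [abs_nonneg (A⁻¹ p.1 p.2)]

theorem PT.pred {T : ι → Tn n k} (h : PT x s (m + 1) ψ T) : PT x s m ψ T := fun I => (h I).pred

theorem PT.of_le {T : ι → Tn n k} {l : ℕ} (h : PT x s m ψ T) (hl : l ≤ m) : PT x s l ψ T :=
  fun I => (h I).of_le hl

theorem PT.wt {T : ι → Tn n k} (h : PT x s m ψ T) {K : ℝ} (hK : 0 ≤ K)
    (e : ∀ i, ψ i ≤ K * χ i) : PT x s m χ T := fun I => (h I).wt hK e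

theorem PT.wte {T : ι → Tn n k} (h : PT x s m ψ T) (e : ∀ i, ψ i = χ i) : PT x s m χ T :=
  fun I => (h I).wte e

namespace MW

theorem of_le (h : MW x s m φ G) {l : ℕ} (hl : l ≤ m) : MW x s l φ G :=
  ⟨h.riem, h.pos, h.inv, h.nn, h.bd, fun a b => (h.dv a b).of_le hl⟩

theorem pred (h : MW x s (m + 1) φ G) : MW x s m φ G := h.of_le (Nat.le_succ m)

theorem one (h : MW x s m φ G) : MW x s m (fun _ => 1) G := by
  obtain ⟨K, hK, h1⟩ := h.bd
  exact ⟨h.riem, h.pos, h.inv, fun _ => zero_le_one, ⟨1, zero_le_one, fun _ => le_rfl⟩,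
    fun a b => (h.dv a b).wt hK fun i => by simpa using h1 i⟩

theorem ent (h : MW x s m φ G) (a b : Fin n) : PB x s m (fun _ => 1) fun i y => G i y a b :=
  ((h.one.dv a b).add (PB.const ((1 : Matrix (Fin n) (Fin n) ℝ) a b))).congr' fun _ _ => by ring

theorem dent (h : MW x s (m + 1) φ G) (j a b : Fin n) :
    PB x s m (fun i => φ i / s i) fun i => pderiv j fun y => G i y a b :=
  ((h.dv a b).pd h.pos j).congr' fun i y => by simp only [pderiv, fderiv_sub_const]

theorem ev (h : MW x s m φ G) {P : ι → En n → Prop}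
    (hP : ∀ i U y, IsRiemannianOn (G i) U → y ∈ U → P i y) (i : ι) : ∀ᶠ y in 𝓝 (x i), P i y := by
  obtain ⟨U, hU, hx⟩ := h.riem i
  exact Filter.eventually_of_mem (hU.isOpen.mem_nhds hx) fun y hy => hP i U y hU hy

theorem ginv (h : MW x s m φ G) (a b : Fin n) :
    PB x s m (fun _ => 1) fun i y => (G i y)⁻¹ a b := by
  have h0 : ∀ a b, PB x s 0 (fun _ => 1) fun i y => (G i y)⁻¹ a b := fun a b => by
    refine ⟨fun i => ?_, h.inv.imp fun C hC => ⟨hC.1, fun i => by simpa using hC.2 i a b⟩⟩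
    obtain ⟨U, hU, hx⟩ := h.riem i
    exact (sm_inv hU a b).contDiffAt (hU.isOpen.mem_nhds hx)
  induction m generalizing a b with
  | zero => exact h0 a b
  | succ m ih =>
    refine PB.of_pd h.pos (h0 a b) fun j => ((PB.sum Finset.univ fun c _ => PB.sum Finset.univ
      fun d _ => ((ih h.pred a c).bmul (h.one.dent j c d)).mulb (ih h.pred d b)).neg).congr ?_
    exact h.ev (P := fun i y => pderiv j (fun z => (G i z)⁻¹ a b) y = _)
      fun i U y hU hy => pd_ginv' hU hy j a b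


theorem chr (h : MW x s (m + 1) φ G) (a b c : Fin n) :
    PB x s m (fun i => φ i / s i) fun i y => christoffel (G i) y a b c :=
  (PB.sum Finset.univ fun l _ => (h.pred.ginv a l).bmul
    (((h.dent b c l).add (h.dent c b l)).sub (h.dent l b c))).cmul (1 / 2)

theorem chr2 (h : MW x s (m + 1) φ G) (a b c d e f : Fin n) :
    PB x s m (fun i => φ i / s i ^ 2)
      fun i y => christoffel (G i) y a b c * christoffel (G i) y d e f :=
  ((h.chr a b c).mul (h.one.chr d e f)).wte fun i => by ring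

theorem dchr (h : MW x s (m + 2) φ G) (j a b c : Fin n) :
    PB x s m (fun i => φ i / s i ^ 2) fun i => pderiv j fun y => christoffel (G i) y a b c :=
  ((h.chr a b c).pd h.pos j).wte fun i => by ring

theorem riemann (h : MW x s (m + 2) φ G) (l a b c : Fin n) :
    PB x s m (fun i => φ i / s i ^ 2) fun i y => riemann (G i) y l a b c :=
  ((h.dchr b l c a).sub (h.dchr c l b a)).add (PB.sum Finset.univ fun e _ =>
    (h.pred.chr2 l b e e c a).sub (h.pred.chr2 l c e e b a))

theorem rmT (h : MW x s (m + 2) φ G) :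
    PT x s m (fun i => φ i / s i ^ 2) fun i => rmT (G i) := fun I =>
  PB.sum Finset.univ fun e _ => (h.pred.pred.ent (I 0) e).bmul (h.riemann e (I 1) (I 2) (I 3))

theorem ricci (h : MW x s (m + 2) φ G) (a b : Fin n) :
    PB x s m (fun i => φ i / s i ^ 2) fun i y => ricci (G i) y a b :=
  (((PB.sum Finset.univ fun c _ => h.dchr c c a b).sub
    (((PB.sum Finset.univ fun c _ => h.chr c c a).pd h.pos b).wte fun i => by ring)).add
    (PB.sum Finset.univ fun c _ => PB.sum Finset.univ fun d _ => h.pred.chr2 c c d d a b)).sub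
    (PB.sum Finset.univ fun c _ => PB.sum Finset.univ fun d _ => h.pred.chr2 c b d d c a)

theorem ricT (h : MW x s (m + 2) φ G) :
    PT x s m (fun i => φ i / s i ^ 2) fun i => ricT (G i) := fun I => h.ricci (I 0) (I 1)

/-- the connection terms of the covariant derivative -/
theorem conn (h : MW x s (m + 1) φ G) {T : ι → Tn n k} (hT : PT x s m ψ T) (a : Fin n)
    (J : Fin k → Fin n) : PB x s m (fun i => φ i * ψ i / s i) fun i y =>
      ∑ r : Fin k, ∑ c, christoffel (G i) y c a (J r) * T i y (Function.update J r c) :=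
  PB.sum Finset.univ fun r _ => PB.sum Finset.univ fun c _ =>
    ((h.chr c a (J r)).mul (hT _)).wte fun i => by ring

theorem cov (h : MW x s (m + 1) φ G) {T : ι → Tn n k} (hT : PT x s (m + 1) ψ T) :
    PT x s m (fun i => ψ i / s i) fun i => cov (G i) (T i) := fun J =>
  ((hT (Fin.tail J)).pd h.pos (J 0)).sub
    ((h.one.conn hT.pred (J 0) (Fin.tail J)).wte fun i => by ring)

theorem covN {T : ι → Tn n k} (j : ℕ) : ∀ {m : ℕ}, MW x s (m + j) φ G → PT x s (m + j) ψ T →
    PT x s m (fun i => ψ i / s i ^ j) fun i => covN (G i) (T i) j := by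
  induction j with
  | zero => exact fun _ hT => hT.wte fun i => by simp
  | succ j ih =>
    intro m h hT
    exact ((h.of_le (l := m + 1) (by omega)).cov (ih (m := m + 1) (h.of_le (by omega))
      (hT.of_le (by omega)))).wte fun i => by ring

/-- conversely, the covariant derivatives control the jets -/
theorem of_covN {T : ι → Tn n k} (h : MW x s m φ G)
    (hT : ∀ j ≤ m, PT x s 0 (fun i => ψ i / s i ^ j) fun i => N207.covN (G i) (T i) j) :
    PT x s m ψ T := by
  have key : ∀ r j, j + r ≤ m →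
      PT x s r (fun i => ψ i / s i ^ j) fun i => N207.covN (G i) (T i) j := by
    intro r
    induction r with
    | zero => exact fun j hj => hT j hj
    | succ r ih =>
      intro j hj J
      refine PB.of_pd h.pos (hT j (by omega) J) fun a => ?_
      refine (((ih (j + 1) (by omega) (Fin.cons a J)).wte fun i => by ring).add
        (((h.of_le (l := r + 1) (by omega)).one.conn (ih j (by omega)) a J).wte
          fun i => by ring)).congr' fun i y => ?_
      simp [N207.covN, N207.cov]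
  exact (key m 0 (by omega)).wte fun i => by simp

theorem ip (h : MW x s m φ G) {S T : ι → Tn n k} (hS : PT x s m ψ S) (hT : PT x s m χ T) :
    PB x s m (fun i => ψ i * χ i) fun i => ip (G i) (S i) (T i) :=
  PB.sum Finset.univ fun I _ => PB.sum Finset.univ fun J _ =>
    (PB.prod Finset.univ fun r _ => h.ginv (I r) (J r)).bmul ((hS I).mul (hT J))

theorem trT (h : MW x s m φ G) {T : ι → Tn n (k + 2)} (hT : PT x s m ψ T) :
    PT x s m ψ fun i => trT (G i) (T i) := fun _ =>
  PB.sum Finset.univ fun a _ => PB.sum Finset.univ fun b _ => (h.ginv a b).bmul (hT _)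

theorem nsq_le (h : MW x s m φ G) {T : ι → Tn n k} (hT : PT x s 0 ψ T) :
    ∃ C, 0 < C ∧ ∀ i, nsq (G i) (T i) (x i) ≤ C * ψ i ^ 2 := by
  obtain ⟨C, hC, h1⟩ := ((h.of_le (Nat.zero_le m)).ip hT hT).val
  refine ⟨C + 1, by positivity, fun i => ((le_abs_self _).trans (h1 i)).trans ?_⟩
  nlinarith [sq_nonneg (ψ i)]

theorem sqrt_nsq_le (h : MW x s m φ G) {T : ι → Tn n k} (hT : PT x s 0 ψ T)
    (hψ : ∀ i, 0 ≤ ψ i) : ∃ C, 0 < C ∧ ∀ i, √(nsq (G i) (T i) (x i)) ≤ C * ψ i := by
  obtain ⟨C, hC, h1⟩ := h.nsq_le hT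
  refine ⟨√C, Real.sqrt_pos.2 hC, fun i => (Real.sqrt_le_sqrt (h1 i)).trans_eq ?_⟩
  rw [Real.sqrt_mul hC.le, Real.sqrt_sq (hψ i)]

end MW

end Crest.Agent.N207.U

end
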